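import Vale.Agent.P050.H523.Cond

/-!
Hypercontractivity of extremal kernels.
-/

namespace Vale.Agent.P050.H523

open Finset

/-- inequality between the geometric and the arithmetic mean, for powers -/
theorem prod_le_sum_pow {ι : Type*} (s : Finset ι) (hs : 0 < s.card) (x : ι → ℝ)
    (hx : ∀ i, 0 ≤ x i) :
    (s.card : ℝ) * ∏ i ∈ s, x i ≤ ∑ i ∈ s, x i ^ s.card := by
  have hs0 : (0 : ℝ) < s.card := by exact_mod_cast hs
  have h1 := Real.geom_mean_le_arith_mean_weighted s (fun _ => (s.card : ℝ)⁻¹)
    (fun i => x i ^ s.card) (fun _ _ => by positivity)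
    (by rw [Finset.sum_const, nsmul_eq_mul, mul_inv_cancel₀ hs0.ne'])
    (fun i _ => pow_nonneg (hx i) _)
  have h2 : ∀ i ∈ s, (x i ^ s.card) ^ ((s.card : ℝ)⁻¹) = x i := fun i _ =>
    Real.pow_rpow_inv_natCast (hx i) hs.ne'
  rw [Finset.prod_congr rfl h2, ← Finset.mul_sum] at h1
  calc (s.card : ℝ) * ∏ i ∈ s, x i ≤ s.card * ((s.card : ℝ)⁻¹ * ∑ i ∈ s, x i ^ s.card) := by
        gcongr
    _ = _ := by
        rw [← mul_assoc, mul_inv_cancel₀ hs0.ne', one_mul]

section

variable {V : Type} [Fintype V] [DecidableEq V] {E : Finset (V × V)} {side : V → Bool}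
  {d : Bool → ℕ} {U : Type} [Fintype U] {m : Bool → U → ℝ} {W : U → U → ℝ}

theorem exp_match' (h : Biregular E side d) (b : Bool) :
    (d b - 1) * E.card = d b * (E.card - sideCard side b) := by
  rw [h.card_sub b, h.card_eq b]
  ring

/-- hypercontractivity, in powers of a common base -/
theorem Extremal.hyper_aux (hX : Extremal E side d m W) (h : Biregular E side d)
    (hd : ∀ b, 2 ≤ d b) (hE : 0 < E.card) (s : Bool → U → ℝ) (hs : ∀ b x, 0 ≤ s b x) :
    (∑ x, ∑ y, m false x * m true y * W x y *
        ((s false x ^ (d false - 1) * s true y ^ (d true - 1)) ^ E.card)) ^ (E.card - 1) ≤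
      (∑ x, m false x * (s false x ^ (E.card - 1)) ^ d false) ^
          (E.card - sideCard side false) *
        (∑ y, m true y * (s true y ^ (E.card - 1)) ^ d true) ^
          (E.card - sideCard side true) := by
  set g : U → U → ℝ := fun x y => s false x ^ (d false - 1) * s true y ^ (d true - 1) with hg
  have hg0 : ∀ x y, 0 ≤ g x y := fun x y =>
    mul_nonneg (pow_nonneg (hs _ _) _) (pow_nonneg (hs _ _) _)
  have key := hX.minimal g (fun b x => s b x ^ (E.card - 1)) hg0
    (fun b x => pow_nonneg (hs b x) _)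
  set Q := ∑ x, ∑ y, m false x * m true y * W x y * g x y ^ E.card with hQ
  have h1 : ∑ x, ∑ y, m false x * m true y * W x y *
      (g x y * (s false x ^ (E.card - 1)) ^ (d false - 1) *
        (s true y ^ (E.card - 1)) ^ (d true - 1)) = Q := by
    refine Finset.sum_congr rfl fun x _ => Finset.sum_congr rfl fun y _ => ?_
    congr 1
    have h2 : E.card = (E.card - 1) + 1 := by omega
    rw [mul_assoc, ← pow_mul, ← pow_mul, mul_comm (E.card - 1) (d false - 1),
      mul_comm (E.card - 1) (d true - 1), pow_mul, pow_mul, ← mul_pow]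
    conv_rhs => rw [h2, pow_succ]
    rw [mul_comm]
  have hQ0 : 0 ≤ Q := Finset.sum_nonneg fun x _ => Finset.sum_nonneg fun y _ =>
    mul_nonneg (mul_nonneg (mul_nonneg (hX.m_nonneg _ _) (hX.m_nonneg _ _)) (hX.W_nonneg _ _))
      (pow_nonneg (hg0 _ _) _)
  have hE0 : (0 : ℝ) < E.card := by exact_mod_cast hE
  have h4 : dens E side m (fun x y => W x y * g x y) ≤ dens E side m W * Q := by
    have h5 := hX.crit h hd (fun x y => g x y ^ E.card)
    have h6 : ∑ p : U × U, law m W p * g p.1 p.2 ^ E.card = Q := by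
      rw [Fintype.sum_prod_type]
      rfl
    rw [h6] at h5
    have h7 : (E.card : ℝ) * dens E side m (fun x y => W x y * g x y) ≤
        ∑ z, rho E side m W z * esum E (fun x y => g x y ^ E.card) z := by
      rw [dens_mul, Finset.mul_sum]
      refine Finset.sum_le_sum fun z _ => ?_
      rw [mul_left_comm]
      exact mul_le_mul_of_nonneg_left
        (prod_le_sum_pow E hE (fun e => g (z e.1) (z e.2)) fun e => hg0 _ _) (hX.rho_nonneg z)
    rw [h5] at h7
    have h8 : (E.card : ℝ) * dens E side m (fun x y => W x y * g x y) ≤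
        E.card * (dens E side m W * Q) := by
      linarith
    exact le_of_mul_le_mul_left h8 hE0
  rw [h1] at key
  set A := ∑ x, m false x * (s false x ^ (E.card - 1)) ^ d false with hA
  set B := ∑ y, m true y * (s true y ^ (E.card - 1)) ^ d true with hB
  have hA0 : 0 ≤ A := Finset.sum_nonneg fun _ _ => mul_nonneg (hX.m_nonneg _ _)
    (pow_nonneg (pow_nonneg (hs _ _) _) _)
  have hB0 : 0 ≤ B := Finset.sum_nonneg fun _ _ => mul_nonneg (hX.m_nonneg _ _)
    (pow_nonneg (pow_nonneg (hs _ _) _) _)
  have hpos := hX.pos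
  have h2E : 2 ≤ E.card := by
    have h1 := h.card_eq false
    have h2 := hd false
    have h3 : sideCard side false ≠ 0 := by
      intro h4
      rw [h4] at h1
      omega
    have h4 : 1 ≤ sideCard side false := by omega
    nlinarith
  rcases hQ0.eq_or_lt with hQ1 | hQ1
  · rw [← hQ1, zero_pow (by omega)]
    positivity
  · have h9 : dens E side m W * Q * Q ^ (E.card - 1) ≤ dens E side m W * Q *
        (A ^ (E.card - sideCard side false) * B ^ (E.card - sideCard side true)) := by
      have h10 : Q ^ E.card = Q * Q ^ (E.card - 1) := by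
        rw [← pow_succ', Nat.sub_add_cancel hE]
      rw [h10] at key
      calc dens E side m W * Q * Q ^ (E.card - 1) = dens E side m W * (Q * Q ^ (E.card - 1)) := by
            ring
        _ ≤ _ := key
        _ ≤ dens E side m W * Q * A ^ (E.card - sideCard side false) *
            B ^ (E.card - sideCard side true) := by
            gcongr
        _ = _ := by ring
    exact le_of_mul_le_mul_left h9 (by positivity)

/-- Hypercontractivity: with `e` edges and `n false`, `n true` vertices on the two sides,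
`(E a^(e - n false) b^(e - n true))^(e-1) ≤ (E a^(e-1))^(e - n false) (E b^(e-1))^(e - n true)`. -/
theorem Extremal.hyper (hX : Extremal E side d m W) (h : Biregular E side d)
    (hd : ∀ b, 2 ≤ d b) (hE : 0 < E.card) (a b : U → ℝ) (ha : ∀ x, 0 ≤ a x) (hb : ∀ y, 0 ≤ b y) :
    (∑ x, ∑ y, m false x * m true y * W x y *
        (a x ^ (E.card - sideCard side false) * b y ^ (E.card - sideCard side true))) ^
          (E.card - 1) ≤
      (∑ x, m false x * a x ^ (E.card - 1)) ^ (E.card - sideCard side false) *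
        (∑ y, m true y * b y ^ (E.card - 1)) ^ (E.card - sideCard side true) := by
  have hd0 : ∀ c, d c ≠ 0 := fun c => by have := hd c; omega
  have key := hX.hyper_aux h hd hE
    (fun c x => if c = false then a x ^ ((d false : ℝ)⁻¹) else b x ^ ((d true : ℝ)⁻¹))
    (fun c x => by
      split_ifs
      · exact Real.rpow_nonneg (ha x) _
      · exact Real.rpow_nonneg (hb x) _)
  simp only [if_true, Bool.true_eq_false, if_false] at key
  have h1 : ∀ x, (a x ^ ((d false : ℝ)⁻¹)) ^ d false = a x := fun x =>
    Real.rpow_inv_natCast_pow (ha x) (hd0 _)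
  have h2 : ∀ x, (b x ^ ((d true : ℝ)⁻¹)) ^ d true = b x := fun x =>
    Real.rpow_inv_natCast_pow (hb x) (hd0 _)
  have h3 : ∀ x, ((a x ^ ((d false : ℝ)⁻¹)) ^ (E.card - 1)) ^ d false = a x ^ (E.card - 1) := by
    intro x
    rw [← pow_mul, mul_comm, pow_mul, h1]
  have h4 : ∀ x, ((b x ^ ((d true : ℝ)⁻¹)) ^ (E.card - 1)) ^ d true = b x ^ (E.card - 1) := by
    intro x
    rw [← pow_mul, mul_comm, pow_mul, h2]
  have h5 : ∀ x y, ((a x ^ ((d false : ℝ)⁻¹)) ^ (d false - 1) *
      (b y ^ ((d true : ℝ)⁻¹)) ^ (d true - 1)) ^ E.card =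
      a x ^ (E.card - sideCard side false) * b y ^ (E.card - sideCard side true) := by
    intro x y
    rw [mul_pow, ← pow_mul, ← pow_mul, exp_match' h false, exp_match' h true, pow_mul, pow_mul,
      h1, h2]
  simp_rw [h3, h4, h5] at key
  exact key

end

end Vale.Agent.P050.H523
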