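import Vale.Agent.P050.H523.Sing
import Vale.Agent.P050.H523.Hyp

/-!
Admissible targets: the properties of an extremal kernel; powers of kernels.
-/

namespace Vale.Agent.P050.H523

open Finset

/-- Admissible targets for the bipartite graph with edges `E`, all of whose vertices on side `b`
have degree `d b`. Write `π(x,y) = m false x * m true y * W x y`, `e` for the number of edges, `n₀`,
`n₁` for the numbers of vertices on the sides `false`, `true`, and `t` for the homomorphism density
`dens E side m W`. -/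
structure Admissible {V : Type} [Fintype V] [DecidableEq V] (E : Finset (V × V))
    (side : V → Bool) (d : Bool → ℕ) {U : Type} [Fintype U] (m : Bool → U → ℝ)
    (W : U → U → ℝ) : Prop where
  /-- probability weights -/
  m_nonneg : ∀ b x, 0 ≤ m b x
  m_sum : ∀ b, ∑ x, m b x = 1
  /-- the kernel is nonnegative, with all margins equal to one -/
  W_nonneg : ∀ x y, 0 ≤ W x y
  margin_false : ∀ x, m false x ≠ 0 → ∑ y, m true y * W x y = 1
  margin_true : ∀ y, m true y ≠ 0 → ∑ x, m false x * W x y = 1
  /-- `W` minimises the homomorphism density among all kernels on this ground set, relative to the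
  norm from `L^(d₀/(d₀-1)) x L^(d₁/(d₁-1))` to the reals -/
  minimal : ∀ (K : U → U → ℝ) (f : Bool → U → ℝ), (∀ x y, 0 ≤ K x y) → (∀ b x, 0 ≤ f b x) →
    dens E side m W * (∑ x, ∑ y, m false x * m true y * K x y *
        (f false x ^ (d false - 1) * f true y ^ (d true - 1))) ^ E.card ≤
      dens E side m K *
        (∑ x, m false x * f false x ^ d false) ^ (E.card - sideCard side false) *
        (∑ y, m true y * f true y ^ d true) ^ (E.card - sideCard side true)
  /-- in a random homomorphism the average law of an edge is `π` -/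
  edge_law : ∀ s : U → U → ℝ,
    ∑ z : V → U, ((∏ v, m (side v) (z v)) * ∏ e ∈ E, W (z e.1) (z e.2)) *
        ∑ e ∈ E, s (z e.1) (z e.2) =
      dens E side m W * E.card * ∑ x, ∑ y, m false x * m true y * W x y * s x y
  /-- hypercontractivity: `π(a b) ≤ ‖a‖_p ‖b‖_q`, `p = (e-1)/(e-n₀)`, `q = (e-1)/(e-n₁)` -/
  hyper : ∀ a b : U → ℝ, (∀ x, 0 ≤ a x) → (∀ y, 0 ≤ b y) →
    (∑ x, ∑ y, m false x * m true y * W x y *
        (a x ^ (E.card - sideCard side false) * b y ^ (E.card - sideCard side true))) ^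
          (E.card - 1) ≤
      (∑ x, m false x * a x ^ (E.card - 1)) ^ (E.card - sideCard side false) *
        (∑ y, m true y * b y ^ (E.card - 1)) ^ (E.card - sideCard side true)
  /-- no dense blocks: `π(S x T)^(e-1) ≤ m₀(S)^(e-n₀) m₁(T)^(e-n₁)` -/
  block : ∀ S T : Finset U,
    (∑ x ∈ S, ∑ y ∈ T, m false x * m true y * W x y) ^ (E.card - 1) ≤
      (∑ x ∈ S, m false x) ^ (E.card - sideCard side false) *
        (∑ y ∈ T, m true y) ^ (E.card - sideCard side true)
  /-- `(e - n₀) ‖E(φ|x)‖² + (e - n₁) ‖E(φ|y)‖² ≤ (e - 1) ‖φ‖²` for `φ` of mean zero -/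
  gap : ∀ (φ : U → U → ℝ) (a b : U → ℝ),
    ∑ x, ∑ y, m false x * m true y * W x y * φ x y = 0 →
    (∀ x, m false x * a x = ∑ y, m false x * m true y * W x y * φ x y) →
    (∀ y, m true y * b y = ∑ x, m false x * m true y * W x y * φ x y) →
    ((E.card : ℝ) - sideCard side false) * ∑ x, m false x * a x ^ 2 +
      ((E.card : ℝ) - sideCard side true) * ∑ y, m true y * b y ^ 2 ≤
      ((E.card : ℝ) - 1) * ∑ x, ∑ y, m false x * m true y * W x y * φ x y ^ 2
  /-- the second singular value: `σ² ≤ (n₀ - 1)(n₁ - 1) / ((e - n₀)(e - n₁))` -/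
  singular : ∀ u v : U → ℝ, ∑ x, m false x * u x = 0 → ∑ y, m true y * v y = 0 →
    ((E.card : ℝ) - sideCard side false) * ((E.card : ℝ) - sideCard side true) *
        (∑ x, ∑ y, m false x * m true y * W x y * (u x * v y)) ^ 2 ≤
      ((sideCard side false : ℝ) - 1) * ((sideCard side true : ℝ) - 1) *
        ((∑ x, m false x * u x ^ 2) * ∑ y, m true y * v y ^ 2)

section

variable {V : Type} [Fintype V] [DecidableEq V] {E : Finset (V × V)} {side : V → Bool}
  {d : Bool → ℕ} {U : Type} [Fintype U] {m : Bool → U → ℝ} {W : U → U → ℝ}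

theorem Extremal.admissible (hX : Extremal E side d m W) (h : Biregular E side d)
    (hd : ∀ b, 2 ≤ d b) (hE : 0 < E.card) : Admissible E side d m W := by
  classical
  refine ⟨hX.m_nonneg, hX.m_sum, hX.W_nonneg, ?_, ?_, hX.minimal_all, ?_, hX.hyper h hd hE,
    hX.block h hd hE, ?_, hX.singular h hd hE⟩
  · intro x hx
    have h1 := hX.margin_false h hd hE (fun x' => if x' = x then 1 else 0)
    rw [Fintype.sum_prod_type] at h1
    have h2 : m false x * ∑ y, m true y * W x y = m false x := by
      rw [Finset.mul_sum]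
      have h3 : ∑ y, m false x * (m true y * W x y) = ∑ y, law m W (x, y) :=
        Finset.sum_congr rfl fun y _ => by unfold law; ring
      rw [h3]
      simpa using h1
    exact mul_left_cancel₀ hx (by rw [h2, mul_one])
  · intro y hy
    have h1 := hX.margin_true h hd hE (fun x' => if x' = y then 1 else 0)
    rw [Fintype.sum_prod_type_right] at h1
    have h2 : m true y * ∑ x, m false x * W x y = m true y := by
      rw [Finset.mul_sum]
      have h3 : ∑ x, m true y * (m false x * W x y) = ∑ x, law m W (x, y) :=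
        Finset.sum_congr rfl fun y _ => by unfold law; ring
      rw [h3]
      simpa using h1
    exact mul_left_cancel₀ hy (by rw [h2, mul_one])
  · intro s
    have h1 := hX.crit h hd s
    rw [Fintype.sum_prod_type] at h1
    exact h1
  · intro φ a b h1 h2 h3
    have h4 := hX.poincare h hd hE φ (fun c x => if c = false then a x else b x)
      (by rw [Fintype.sum_prod_type]; exact h1)
      (by intro x; simpa [law] using h2 x)
      (by intro y; simpa [law] using h3 y)
    rw [Fintype.sum_prod_type] at h4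
    simpa [law] using h4

/-- the density of a product of kernels -/
theorem dens_prod (m₀ : Bool → U → ℝ) (W₀ : U → U → ℝ) :
    dens E side (fun b (x : U × U) => m₀ b x.1 * m₀ b x.2)
      (fun x y => W₀ x.1 y.1 * W₀ x.2 y.2) = dens E side m₀ W₀ ^ 2 := by
  unfold dens
  rw [pow_two, Finset.sum_mul_sum, ← Fintype.sum_prod_type']
  rw [← Equiv.sum_comp (Equiv.arrowProdEquivProdArrow V (fun _ => U) (fun _ => U)).symm]
  refine Finset.sum_congr rfl fun z _ => ?_
  simp only [Equiv.arrowProdEquivProdArrow, Equiv.coe_fn_symm_mk]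
  rw [Finset.prod_mul_distrib, Finset.prod_mul_distrib]
  ring

theorem mean_prod (m₀ : Bool → U → ℝ) (W₀ : U → U → ℝ) :
    ∑ x : U × U, ∑ y : U × U, m₀ false x.1 * m₀ false x.2 * (m₀ true y.1 * m₀ true y.2) *
      (W₀ x.1 y.1 * W₀ x.2 y.2) =
      (∑ x, ∑ y, m₀ false x * m₀ true y * W₀ x y) ^ 2 := by
  rw [pow_two, Finset.sum_mul_sum, Fintype.sum_prod_type]
  refine Finset.sum_congr rfl fun x _ => Finset.sum_congr rfl fun x' _ => ?_
  rw [Finset.sum_mul_sum, Fintype.sum_prod_type]
  refine Finset.sum_congr rfl fun y _ => Finset.sum_congr rfl fun y' _ => ?_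
  ring

end

/-- repeated squaring: a violation of the inequality becomes arbitrarily large -/
theorem exists_violation {V : Type} [Fintype V] [DecidableEq V] {E : Finset (V × V)}
    {side : V → Bool} (r : ℝ) :
    ∀ (k : ℕ) (U : Type) [Fintype U] (m₀ : Bool → U → ℝ) (W₀ : U → U → ℝ),
      (∀ b x, 0 ≤ m₀ b x) → (∀ b, ∑ x, m₀ b x = 1) → (∀ x y, 0 ≤ W₀ x y) →
      0 < ∑ x, ∑ y, m₀ false x * m₀ true y * W₀ x y →
      dens E side m₀ W₀ ≤ r * (∑ x, ∑ y, m₀ false x * m₀ true y * W₀ x y) ^ E.card →
      ∃ (U' : Type) (_ : Fintype U') (m : Bool → U' → ℝ) (W : U' → U' → ℝ),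
        (∀ b x, 0 ≤ m b x) ∧ (∀ b, ∑ x, m b x = 1) ∧ (∀ x y, 0 ≤ W x y) ∧
        0 < ∑ x, ∑ y, m false x * m true y * W x y ∧
        dens E side m W ≤ r ^ (2 ^ k) * (∑ x, ∑ y, m false x * m true y * W x y) ^ E.card := by
  intro k
  induction k with
  | zero =>
    intro U _ m₀ W₀ h1 h2 h3 h4 h5
    exact ⟨U, inferInstance, m₀, W₀, h1, h2, h3, h4, by simpa using h5⟩
  | succ k ih =>
    intro U _ m₀ W₀ h1 h2 h3 h4 h5
    obtain ⟨U', _, m, W, g1, g2, g3, g4, g5⟩ := ih U m₀ W₀ h1 h2 h3 h4 h5
    refine ⟨U' × U', inferInstance, fun b x => m b x.1 * m b x.2,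
      fun x y => W x.1 y.1 * W x.2 y.2, fun b x => mul_nonneg (g1 _ _) (g1 _ _), ?_,
      fun x y => mul_nonneg (g3 _ _) (g3 _ _), ?_, ?_⟩
    · intro b
      rw [Fintype.sum_prod_type, ← Finset.sum_mul_sum, g2, one_mul]
    · rw [mean_prod]
      positivity
    · rw [mean_prod, dens_prod]
      have h6 : 0 ≤ dens E side m W := by
        unfold dens
        exact Finset.sum_nonneg fun z _ => mul_nonneg (Finset.prod_nonneg fun _ _ => g1 _ _)
          (Finset.prod_nonneg fun _ _ => g3 _ _)
      calc dens E side m W ^ 2 ≤ (r ^ (2 ^ k) *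
            (∑ x, ∑ y, m false x * m true y * W x y) ^ E.card) ^ 2 := by gcongr
        _ = _ := by
          rw [mul_pow, ← pow_mul, ← pow_succ, ← pow_mul, ← pow_mul]
          ring

end Vale.Agent.P050.H523
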