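import Vale.Agent.P050.Lev.KSid

/-!
Weighted homomorphism densities of a bipartite graph all of whose vertices on the same side have
the same degree; extremal kernels.
-/

namespace Vale.Agent.P050.H523

open Finset

/-- Density of homomorphisms from the bipartite graph with edges `E` (directed from the side
`false` to the side `true`) to the kernel `W`, with weights `m false`, `m true` on the two
sides. -/
noncomputable def dens {V : Type} [Fintype V] [DecidableEq V] (E : Finset (V × V))
    (side : V → Bool) {U : Type} [Fintype U] (m : Bool → U → ℝ) (W : U → U → ℝ) : ℝ :=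
  ∑ z : V → U, (∏ v, m (side v) (z v)) * ∏ e ∈ E, W (z e.1) (z e.2)

/-- The edges `E` go from the side `false` to the side `true`, and all vertices on side `b` have
degree `d b`. -/
structure Biregular {V : Type} [Fintype V] [DecidableEq V] (E : Finset (V × V))
    (side : V → Bool) (d : Bool → ℕ) : Prop where
  sides : ∀ e ∈ E, side e.1 = false ∧ side e.2 = true
  deg : ∀ v, (E.filter fun e => e.1 = v ∨ e.2 = v).card = d (side v)

/-- number of vertices on side `b` -/
def sideCard {V : Type} [Fintype V] (side : V → Bool) (b : Bool) : ℕ :=
  (univ.filter fun v => side v = b).card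

section

variable {V : Type} [Fintype V] [DecidableEq V] {E : Finset (V × V)} {side : V → Bool}
  {d : Bool → ℕ}

theorem Biregular.ne (h : Biregular E side d) {e : V × V} (he : e ∈ E) : e.1 ≠ e.2 := by
  intro h1
  have h2 := h.sides e he
  rw [h1, h2.2] at h2
  exact absurd h2.1 (by simp)

theorem Biregular.prod_edges {M : Type*} [CommMonoid M] (h : Biregular E side d) (f : V → M) :
    ∏ e ∈ E, f e.1 * f e.2 = ∏ v, f v ^ d (side v) := by
  classical
  have h1 : ∀ e ∈ E, f e.1 * f e.2 = ∏ v, if e.1 = v ∨ e.2 = v then f v else 1 := by
    intro e he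
    rw [← Finset.prod_filter]
    have h2 : (univ.filter fun v => e.1 = v ∨ e.2 = v) = {e.1, e.2} := by
      ext v
      simp only [mem_filter, mem_univ, true_and, mem_insert, mem_singleton]
      constructor
      · rintro (h | h)
        · exact Or.inl h.symm
        · exact Or.inr h.symm
      · rintro (h | h)
        · exact Or.inl h.symm
        · exact Or.inr h.symm
    rw [h2, Finset.prod_pair (h.ne he)]
  rw [Finset.prod_congr rfl h1, Finset.prod_comm]
  refine Finset.prod_congr rfl fun v _ => ?_
  rw [← Finset.prod_filter, Finset.prod_const, h.deg v]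

theorem Biregular.sum_edges (h : Biregular E side d) (f : V → ℝ) :
    ∑ e ∈ E, (f e.1 + f e.2) = ∑ v, (d (side v) : ℝ) * f v := by
  classical
  have h1 : ∀ e ∈ E, f e.1 + f e.2 = ∑ v, if e.1 = v ∨ e.2 = v then f v else 0 := by
    intro e he
    rw [← Finset.sum_filter]
    have h2 : (univ.filter fun v => e.1 = v ∨ e.2 = v) = {e.1, e.2} := by
      ext v
      simp only [mem_filter, mem_univ, true_and, mem_insert, mem_singleton]
      constructor
      · rintro (h | h)
        · exact Or.inl h.symm
        · exact Or.inr h.symm
      · rintro (h | h)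
        · exact Or.inl h.symm
        · exact Or.inr h.symm
    rw [h2, Finset.sum_pair (h.ne he)]
  rw [Finset.sum_congr rfl h1, Finset.sum_comm]
  refine Finset.sum_congr rfl fun v _ => ?_
  rw [← Finset.sum_filter, Finset.sum_const, h.deg v, nsmul_eq_mul]

/-- the number of edges is the number of vertices on one side times their degree -/
theorem Biregular.card_eq (h : Biregular E side d) (b : Bool) :
    E.card = d b * sideCard side b := by
  classical
  have h1 := h.sum_edges (fun v => if side v = b then (1 : ℝ) else 0)
  have h2 : ∑ e ∈ E, ((if side e.1 = b then (1 : ℝ) else 0) + (if side e.2 = b then (1 : ℝ) else 0))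
      = E.card := by
    rw [Finset.card_eq_sum_ones]
    push_cast
    refine Finset.sum_congr rfl fun e he => ?_
    have h3 := h.sides e he
    rw [h3.1, h3.2]
    cases b <;> simp
  rw [h2] at h1
  have h4 : ∑ v, (d (side v) : ℝ) * (if side v = b then (1 : ℝ) else 0)
      = (d b * sideCard side b : ℕ) := by
    rw [sideCard, Finset.card_filter]
    push_cast
    rw [Finset.mul_sum]
    refine Finset.sum_congr rfl fun v _ => ?_
    by_cases h5 : side v = b
    · simp [h5]
    · simp [h5]
  rw [h4] at h1
  exact_mod_cast h1

theorem Biregular.card_sub (h : Biregular E side d) (b : Bool) :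
    E.card - sideCard side b = (d b - 1) * sideCard side b := by
  rw [h.card_eq b, Nat.sub_mul, one_mul]

/-- products over edges of functions of the two ends -/
theorem Biregular.prod_ends (h : Biregular E side d) {U : Type} (F : Bool → U → ℝ) (z : V → U) :
    ∏ e ∈ E, F false (z e.1) * F true (z e.2) = ∏ v, F (side v) (z v) ^ d (side v) := by
  rw [← h.prod_edges (fun v => F (side v) (z v))]
  refine Finset.prod_congr rfl fun e he => ?_
  have h3 := h.sides e he
  rw [h3.1, h3.2]

theorem Biregular.sum_ends (h : Biregular E side d) {U : Type} (F : Bool → U → ℝ) (z : V → U) :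
    ∑ e ∈ E, (F false (z e.1) + F true (z e.2)) = ∑ v, (d (side v) : ℝ) * F (side v) (z v) := by
  rw [← h.sum_edges (fun v => F (side v) (z v))]
  refine Finset.sum_congr rfl fun e he => ?_
  have h3 := h.sides e he
  rw [h3.1, h3.2]

omit [DecidableEq V] in
/-- products over vertices of constants depending on the side -/
theorem prod_side (side : V → Bool) (c : Bool → ℝ) :
    ∏ v, c (side v) = c false ^ sideCard side false * c true ^ sideCard side true := by
  classical
  have h1 : ∏ v, c (side v) = ∏ b : Bool, ∏ v ∈ univ.filter (fun v => side v = b), c (side v) := by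
    rw [Finset.prod_fiberwise]
  rw [h1, Fintype.prod_bool, mul_comm]
  congr 1 <;>
  · rw [Finset.prod_congr rfl (g := fun _ => c _) (fun v hv => by rw [(Finset.mem_filter.1 hv).2]),
      Finset.prod_const]
    rfl

end

/-- An extremal kernel for the bipartite graph with edges `E`: weights `m false`, `m true` of total
mass one, a nonnegative kernel `W` of mean one with positive homomorphism density
`t = dens E side m W`, such that
`t (∫ K f^(d false - 1) g^(d true - 1))^e ≤ dens(K) (∫ f^(d false))^(e - m) (∫ g^(d true))^(e - n)`
for all nonnegative kernels `K` and all nonnegative `f`, `g`; here `e` is the number of edges and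
`m`, `n` are the numbers of vertices on the two sides. -/
structure Extremal {V : Type} [Fintype V] [DecidableEq V] (E : Finset (V × V))
    (side : V → Bool) (d : Bool → ℕ) {U : Type} [Fintype U] (m : Bool → U → ℝ)
    (W : U → U → ℝ) : Prop where
  m_nonneg : ∀ b x, 0 ≤ m b x
  m_sum : ∀ b, ∑ x, m b x = 1
  W_nonneg : ∀ x y, 0 ≤ W x y
  mean : ∑ x, ∑ y, m false x * m true y * W x y = 1
  pos : 0 < dens E side m W
  minimal_all : ∀ (K : U → U → ℝ) (f : Bool → U → ℝ), (∀ x y, 0 ≤ K x y) →
    (∀ b x, 0 ≤ f b x) →
    dens E side m W * (∑ x, ∑ y, m false x * m true y * K x y *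
        (f false x ^ (d false - 1) * f true y ^ (d true - 1))) ^ E.card ≤
      dens E side m K *
        (∑ x, m false x * f false x ^ d false) ^ (E.card - sideCard side false) *
        (∑ y, m true y * f true y ^ d true) ^ (E.card - sideCard side true)

/-- the extremal inequality for the kernels `W h` -/
theorem Extremal.minimal {V : Type} [Fintype V] [DecidableEq V] {E : Finset (V × V)}
    {side : V → Bool} {d : Bool → ℕ} {U : Type} [Fintype U] {m : Bool → U → ℝ}
    {W : U → U → ℝ} (hX : Extremal E side d m W) (h : U → U → ℝ) (f : Bool → U → ℝ)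
    (hh : ∀ x y, 0 ≤ h x y) (hf : ∀ b x, 0 ≤ f b x) :
    dens E side m W * (∑ x, ∑ y, m false x * m true y * W x y *
        (h x y * f false x ^ (d false - 1) * f true y ^ (d true - 1))) ^ E.card ≤
      dens E side m (fun x y => W x y * h x y) *
        (∑ x, m false x * f false x ^ d false) ^ (E.card - sideCard side false) *
        (∑ y, m true y * f true y ^ d true) ^ (E.card - sideCard side true) := by
  have h1 := hX.minimal_all (fun x y => W x y * h x y) f
    (fun x y => mul_nonneg (hX.W_nonneg x y) (hh x y)) hf
  have h2 : ∑ x, ∑ y, m false x * m true y * (W x y * h x y) *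
        (f false x ^ (d false - 1) * f true y ^ (d true - 1)) =
      ∑ x, ∑ y, m false x * m true y * W x y *
        (h x y * f false x ^ (d false - 1) * f true y ^ (d true - 1)) :=
    Finset.sum_congr rfl fun x _ => Finset.sum_congr rfl fun y _ => by ring
  rwa [h2] at h1

end Vale.Agent.P050.H523
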