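import Mathlib

/-!
First and second order conditions for products of exponential sums.
-/

namespace Vale.Agent.P050.H523

open Finset Filter Topology

section

variable {ι : Type*} [Fintype ι]

theorem expsum_pos {w : ι → ℝ} (hw : ∀ i, 0 ≤ w i) (hpos : 0 < ∑ i, w i) (X : ι → ℝ) (s : ℝ) :
    0 < ∑ i, w i * Real.exp (s * X i) := by
  obtain ⟨i, -, hi⟩ : ∃ i ∈ (univ : Finset ι), w i ≠ 0 := by
    by_contra hcon
    push Not at hcon
    exact hpos.ne' (Finset.sum_eq_zero hcon)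
  have h1 : 0 < w i := lt_of_le_of_ne (hw i) (Ne.symm hi)
  exact lt_of_lt_of_le (by positivity)
    (Finset.single_le_sum (f := fun i => w i * Real.exp (s * X i))
      (fun i _ => mul_nonneg (hw i) (Real.exp_pos _).le) (Finset.mem_univ i))

theorem hasDerivAt_expsum (w X : ι → ℝ) (s : ℝ) :
    HasDerivAt (fun s => ∑ i, w i * Real.exp (s * X i)) (∑ i, w i * X i * Real.exp (s * X i)) s := by
  apply HasDerivAt.fun_sum
  intro i _
  have h1 : HasDerivAt (fun s : ℝ => s * X i) (X i) s := by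
    simpa using (hasDerivAt_id s).mul_const (X i)
  have h2 : HasDerivAt (fun s : ℝ => w i * Real.exp (s * X i))
      (w i * (Real.exp (s * X i) * X i)) s := (h1.exp).const_mul (w i)
  rwa [show w i * (Real.exp (s * X i) * X i) = w i * X i * Real.exp (s * X i) by ring] at h2

theorem hasDerivAt_log_expsum {w : ι → ℝ} (hw : ∀ i, 0 ≤ w i) (hpos : 0 < ∑ i, w i) (X : ι → ℝ)
    (s : ℝ) :
    HasDerivAt (fun s => Real.log (∑ i, w i * Real.exp (s * X i)))
      ((∑ i, w i * X i * Real.exp (s * X i)) / ∑ i, w i * Real.exp (s * X i)) s :=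
  (hasDerivAt_expsum w X s).log (expsum_pos hw hpos X s).ne'

theorem hasDerivAt_ratio {w : ι → ℝ} (hw : ∀ i, 0 ≤ w i) (hpos : 0 < ∑ i, w i) (X : ι → ℝ) :
    HasDerivAt (fun s => (∑ i, w i * X i * Real.exp (s * X i)) / ∑ i, w i * Real.exp (s * X i))
      (((∑ i, w i * X i ^ 2) * (∑ i, w i) - (∑ i, w i * X i) ^ 2) / (∑ i, w i) ^ 2) 0 := by
  have h1 := hasDerivAt_expsum (fun i => w i * X i) X 0
  have h2 := hasDerivAt_expsum w X 0
  have h3 : HasDerivAt (fun s => (∑ i, w i * X i * Real.exp (s * X i)) /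
      ∑ i, w i * Real.exp (s * X i)) _ 0 := h1.div h2 (expsum_pos hw hpos X 0).ne'
  have h4 : ∑ i, w i * X i ^ 2 = ∑ i, w i * X i * X i :=
    Finset.sum_congr rfl fun i _ => by ring
  simp only [zero_mul, Real.exp_zero, mul_one] at h3
  rw [h4, pow_two (∑ i, w i * X i)]
  exact h3

end

/-- necessary conditions at a minimum -/
theorem second_order {L L1 : ℝ → ℝ} {c : ℝ} (h0 : ∀ s, 0 ≤ L s) (h1 : L 0 = 0)
    (h2 : ∀ s, HasDerivAt L (L1 s) s) (h3 : HasDerivAt L1 c 0) : L1 0 = 0 ∧ 0 ≤ c := by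
  have h4 : L1 0 = 0 := by
    have h5 : IsLocalMin L 0 := Eventually.of_forall fun s => by rw [h1]; exact h0 s
    exact h5.hasDerivAt_eq_zero (h2 0)
  refine ⟨h4, ?_⟩
  by_contra hc
  push Not at hc
  have h5 := hasDerivAt_iff_tendsto_slope.1 h3
  have h6 : ∀ᶠ s in 𝓝[≠] (0 : ℝ), slope L1 0 s < 0 := h5.eventually_lt_const hc
  rw [eventually_nhdsWithin_iff, Metric.eventually_nhds_iff] at h6
  obtain ⟨ε, hε, h7⟩ := h6
  have h8 : ∀ s ∈ Set.Ioo (0 : ℝ) ε, L1 s < 0 := by
    intro s hs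
    have h9 := h7 (y := s) (by simp [abs_of_pos hs.1, hs.2]) hs.1.ne'
    rw [slope_def_field, h4, sub_zero, sub_zero] at h9
    by_contra h10
    push Not at h10
    exact absurd h9 (not_lt.2 (div_nonneg h10 hs.1.le))
  have h9 : StrictAntiOn L (Set.Icc 0 (ε / 2)) := by
    apply strictAntiOn_of_deriv_neg (convex_Icc _ _)
    · exact fun s _ => (h2 s).continuousAt.continuousWithinAt
    · intro s hs
      rw [interior_Icc] at hs
      rw [(h2 s).deriv]
      exact h8 s ⟨hs.1, by linarith [hs.2]⟩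
  have h10 := h9 ⟨le_rfl, by linarith⟩ (⟨by linarith, le_rfl⟩ : ε / 2 ∈ Set.Icc 0 (ε / 2))
    (by linarith)
  rw [h1] at h10
  exact absurd h10 (not_lt.2 (h0 _))

/-- first and second order conditions -/
theorem moments {α β γ δ : Type*} [Fintype α] [Fintype β] [Fintype γ] [Fintype δ]
    (wA XA : α → ℝ) (wB XB : β → ℝ) (wC XC : γ → ℝ) (wD XD : δ → ℝ)
    (hA : ∀ i, 0 ≤ wA i) (hB : ∀ i, 0 ≤ wB i) (hC : ∀ i, 0 ≤ wC i) (hD : ∀ i, 0 ≤ wD i)
    (t : ℝ) (ht : 0 < t) (sA : ∑ i, wA i = t) (sB : ∑ i, wB i = 1) (sC : ∑ i, wC i = 1)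
    (sD : ∑ i, wD i = 1) (M N e : ℕ)
    (hle : ∀ s : ℝ, t * (∑ i, wD i * Real.exp (s * XD i)) ^ e ≤
      (∑ i, wA i * Real.exp (s * XA i)) * (∑ i, wB i * Real.exp (s * XB i)) ^ M *
        (∑ i, wC i * Real.exp (s * XC i)) ^ N) :
    e * ∑ i, wD i * XD i = (∑ i, wA i * XA i) / t + M * ∑ i, wB i * XB i
        + N * ∑ i, wC i * XC i ∧
      (∑ i, wD i * XD i = 0 → ∑ i, wA i * XA i = 0 → ∑ i, wB i * XB i = 0 →
        ∑ i, wC i * XC i = 0 →
        e * ∑ i, wD i * XD i ^ 2 ≤ (∑ i, wA i * XA i ^ 2) / t + M * ∑ i, wB i * XB i ^ 2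
          + N * ∑ i, wC i * XC i ^ 2) := by
  have pA : 0 < ∑ i, wA i := by rw [sA]; exact ht
  have pB : 0 < ∑ i, wB i := by rw [sB]; exact one_pos
  have pC : 0 < ∑ i, wC i := by rw [sC]; exact one_pos
  have pD : 0 < ∑ i, wD i := by rw [sD]; exact one_pos
  have key := second_order
    (L := fun s => Real.log (∑ i, wA i * Real.exp (s * XA i)) +
      M * Real.log (∑ i, wB i * Real.exp (s * XB i)) +
      N * Real.log (∑ i, wC i * Real.exp (s * XC i)) -
      e * Real.log (∑ i, wD i * Real.exp (s * XD i)) - Real.log t)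
    (L1 := fun s => (∑ i, wA i * XA i * Real.exp (s * XA i)) / (∑ i, wA i * Real.exp (s * XA i)) +
      M * ((∑ i, wB i * XB i * Real.exp (s * XB i)) / ∑ i, wB i * Real.exp (s * XB i)) +
      N * ((∑ i, wC i * XC i * Real.exp (s * XC i)) / ∑ i, wC i * Real.exp (s * XC i)) -
      e * ((∑ i, wD i * XD i * Real.exp (s * XD i)) / ∑ i, wD i * Real.exp (s * XD i)))
    (c := ((∑ i, wA i * XA i ^ 2) * (∑ i, wA i) - (∑ i, wA i * XA i) ^ 2) / (∑ i, wA i) ^ 2 +
      M * (((∑ i, wB i * XB i ^ 2) * (∑ i, wB i) - (∑ i, wB i * XB i) ^ 2) / (∑ i, wB i) ^ 2) +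
      N * (((∑ i, wC i * XC i ^ 2) * (∑ i, wC i) - (∑ i, wC i * XC i) ^ 2) / (∑ i, wC i) ^ 2) -
      e * (((∑ i, wD i * XD i ^ 2) * (∑ i, wD i) - (∑ i, wD i * XD i) ^ 2) / (∑ i, wD i) ^ 2))
    (by
      intro s
      have qA := expsum_pos hA pA XA s
      have qB := expsum_pos hB pB XB s
      have qC := expsum_pos hC pC XC s
      have qD := expsum_pos hD pD XD s
      have h1 := Real.log_le_log (by positivity) (hle s)
      rw [Real.log_mul ht.ne' (by positivity), Real.log_mul (by positivity) (by positivity),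
        Real.log_mul (by positivity) (by positivity), Real.log_pow, Real.log_pow,
        Real.log_pow] at h1
      show 0 ≤ _ - _ - _
      linarith)
    (by
      simp only [zero_mul, Real.exp_zero, mul_one, sA, sB, sC, sD, Real.log_one, mul_zero]
      ring)
    (by
      intro s
      exact ((((hasDerivAt_log_expsum hA pA XA s).add
        ((hasDerivAt_log_expsum hB pB XB s).const_mul _)).add
        ((hasDerivAt_log_expsum hC pC XC s).const_mul _)).sub
        ((hasDerivAt_log_expsum hD pD XD s).const_mul _)).sub_const _)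
    (by
      exact (((hasDerivAt_ratio hA pA XA).add
        ((hasDerivAt_ratio hB pB XB).const_mul _)).add
        ((hasDerivAt_ratio hC pC XC).const_mul _)).sub
        ((hasDerivAt_ratio hD pD XD).const_mul _))
  obtain ⟨k1, k2⟩ := key
  simp only [zero_mul, Real.exp_zero, mul_one, sA, sB, sC, sD, div_one, one_pow] at k1 k2
  refine ⟨by linarith, ?_⟩
  intro zD zA zB zC
  rw [zD, zA, zB, zC] at k2
  have h1 : ((∑ i, wA i * XA i ^ 2) * t - (0 : ℝ) ^ 2) / t ^ 2 = (∑ i, wA i * XA i ^ 2) / t := by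
    field_simp
    ring
  rw [h1] at k2
  linarith

end Vale.Agent.P050.H523
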