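import Vale.Agent.P050.H523.Basic
import Vale.Agent.P050.H523.Calc

/-!
Consequences of extremality: the margins, the average edge law, no dense blocks, second order
condition.
-/

namespace Vale.Agent.P050.H523

open Finset

section

variable {V : Type} [Fintype V] [DecidableEq V] {E : Finset (V × V)} {side : V → Bool}
  {d : Bool → ℕ} {U : Type} [Fintype U] {m : Bool → U → ℝ} {W : U → U → ℝ}

/-- weight of a map from the vertices to the ground set -/
noncomputable def rho (E : Finset (V × V)) (side : V → Bool) (m : Bool → U → ℝ)
    (W : U → U → ℝ) (z : V → U) : ℝ :=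
  (∏ v, m (side v) (z v)) * ∏ e ∈ E, W (z e.1) (z e.2)

/-- the law of an edge -/
noncomputable def law (m : Bool → U → ℝ) (W : U → U → ℝ) (p : U × U) : ℝ :=
  m false p.1 * m true p.2 * W p.1 p.2

/-- sum over the edges -/
noncomputable def esum (E : Finset (V × V)) (s : U → U → ℝ) (z : V → U) : ℝ :=
  ∑ e ∈ E, s (z e.1) (z e.2)

/-- vertex correction -/
noncomputable def vsum (side : V → Bool) (d : Bool → ℕ) (c : Bool → U → ℝ) (z : V → U) : ℝ :=
  ∑ v, ((d (side v) : ℝ) - 1) * c (side v) (z v)

theorem Extremal.rho_nonneg (hX : Extremal E side d m W) (z : V → U) :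
    0 ≤ rho E side m W z :=
  mul_nonneg (Finset.prod_nonneg fun _ _ => hX.m_nonneg _ _)
    (Finset.prod_nonneg fun _ _ => hX.W_nonneg _ _)

theorem Extremal.law_nonneg (hX : Extremal E side d m W) (p : U × U) : 0 ≤ law m W p :=
  mul_nonneg (mul_nonneg (hX.m_nonneg _ _) (hX.m_nonneg _ _)) (hX.W_nonneg _ _)

theorem Extremal.law_sum (hX : Extremal E side d m W) : ∑ p, law m W p = 1 := by
  rw [← hX.mean, Fintype.sum_prod_type]
  rfl

theorem sum_rho : ∑ z, rho E side m W z = dens E side m W := rfl

theorem dens_mul (g : U → U → ℝ) : dens E side m (fun x y => W x y * g x y) =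
    ∑ z, rho E side m W z * ∏ e ∈ E, g (z e.1) (z e.2) := by
  unfold dens rho
  refine Finset.sum_congr rfl fun z _ => ?_
  rw [Finset.prod_mul_distrib]
  ring

/-- the extremal inequality for exponentials -/
theorem Extremal.exp_ineq (hX : Extremal E side d m W) (h : Biregular E side d)
    (hd : ∀ b, 2 ≤ d b) (s : U → U → ℝ) (c : Bool → U → ℝ) (τ : ℝ) :
    dens E side m W * (∑ p : U × U, law m W p * Real.exp (τ * s p.1 p.2)) ^ E.card ≤
      (∑ z, rho E side m W z * Real.exp (τ * (esum E s z - vsum side d c z))) *
        (∑ x, m false x * Real.exp (τ * c false x)) ^ (E.card - sideCard side false) *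
        (∑ y, m true y * Real.exp (τ * c true y)) ^ (E.card - sideCard side true) := by
  have hd0 : ∀ b, (d b : ℝ) ≠ 0 := fun b => by
    have := hd b
    have h1 : d b ≠ 0 := by omega
    exact_mod_cast h1
  have hcast : ∀ b, ((d b - 1 : ℕ) : ℝ) = (d b : ℝ) - 1 := fun b => by
    have := hd b
    rw [Nat.cast_sub (by omega)]
    simp
  have key := hX.minimal
    (fun x y => Real.exp (τ * (s x y - (((d false : ℝ) - 1) / d false * c false x +
      ((d true : ℝ) - 1) / d true * c true y))))
    (fun b x => Real.exp (τ * c b x / d b))
    (fun _ _ => (Real.exp_pos _).le) (fun _ _ => (Real.exp_pos _).le)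
  have h1 : ∀ b, ∑ x, m b x * Real.exp (τ * c b x / d b) ^ d b =
      ∑ x, m b x * Real.exp (τ * c b x) := by
    intro b
    refine Finset.sum_congr rfl fun x _ => ?_
    rw [← Real.exp_nat_mul]
    congr 2
    have := hd0 b
    field_simp
  have h2 : ∑ x, ∑ y, m false x * m true y * W x y *
      (Real.exp (τ * (s x y - (((d false : ℝ) - 1) / d false * c false x +
        ((d true : ℝ) - 1) / d true * c true y))) *
        Real.exp (τ * c false x / d false) ^ (d false - 1) *
        Real.exp (τ * c true y / d true) ^ (d true - 1)) =
      ∑ p : U × U, law m W p * Real.exp (τ * s p.1 p.2) := by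
    rw [Fintype.sum_prod_type]
    refine Finset.sum_congr rfl fun x _ => Finset.sum_congr rfl fun y _ => ?_
    unfold law
    congr 1
    rw [← Real.exp_nat_mul, ← Real.exp_nat_mul, ← Real.exp_add, ← Real.exp_add, hcast, hcast]
    congr 1
    ring
  have h3 : dens E side m (fun x y => W x y *
      Real.exp (τ * (s x y - (((d false : ℝ) - 1) / d false * c false x +
        ((d true : ℝ) - 1) / d true * c true y)))) =
      ∑ z, rho E side m W z * Real.exp (τ * (esum E s z - vsum side d c z)) := by
    rw [dens_mul]
    refine Finset.sum_congr rfl fun z _ => ?_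
    congr 1
    rw [← Real.exp_sum]
    congr 1
    rw [← Finset.mul_sum]
    congr 1
    rw [Finset.sum_sub_distrib]
    congr 1
    rw [h.sum_ends (fun b x => ((d b : ℝ) - 1) / d b * c b x) z]
    unfold vsum
    refine Finset.sum_congr rfl fun v _ => ?_
    have := hd0 (side v)
    field_simp
  rw [h2, h3, h1, h1] at key
  exact key

/-- first and second order conditions -/
theorem Extremal.moments (hX : Extremal E side d m W) (h : Biregular E side d)
    (hd : ∀ b, 2 ≤ d b) (s : U → U → ℝ) (c : Bool → U → ℝ) :
    (E.card : ℝ) * ∑ p : U × U, law m W p * s p.1 p.2 =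
      (∑ z, rho E side m W z * (esum E s z - vsum side d c z)) / dens E side m W
        + ((E.card - sideCard side false : ℕ) : ℝ) * ∑ x, m false x * c false x
        + ((E.card - sideCard side true : ℕ) : ℝ) * ∑ x, m true x * c true x ∧
      (∑ p : U × U, law m W p * s p.1 p.2 = 0 →
        ∑ z, rho E side m W z * (esum E s z - vsum side d c z) = 0 →
        ∑ x, m false x * c false x = 0 → ∑ x, m true x * c true x = 0 →
        (E.card : ℝ) * ∑ p : U × U, law m W p * s p.1 p.2 ^ 2 ≤
          (∑ z, rho E side m W z * (esum E s z - vsum side d c z) ^ 2) / dens E side m W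
          + ((E.card - sideCard side false : ℕ) : ℝ) * ∑ x, m false x * c false x ^ 2
          + ((E.card - sideCard side true : ℕ) : ℝ) * ∑ x, m true x * c true x ^ 2) :=
  H523.moments (rho E side m W) (fun z => esum E s z - vsum side d c z) (m false) (c false)
    (m true) (c true) (law m W) (fun p => s p.1 p.2) hX.rho_nonneg (hX.m_nonneg false)
    (hX.m_nonneg true) hX.law_nonneg (dens E side m W) hX.pos sum_rho (hX.m_sum false)
    (hX.m_sum true) hX.law_sum _ _ _ (fun τ => hX.exp_ineq h hd s c τ)

omit [DecidableEq V] [Fintype U] in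
theorem vsum_zero (z : V → U) : vsum side d (fun _ _ => 0) z = 0 := by
  unfold vsum
  simp

omit [Fintype V] [DecidableEq V] [Fintype U] in
theorem esum_zero (z : V → U) : esum E (fun _ _ => (0 : ℝ)) z = 0 := by
  unfold esum
  simp

/-- the average law of the edges is the law of an edge -/
theorem Extremal.crit (hX : Extremal E side d m W) (h : Biregular E side d)
    (hd : ∀ b, 2 ≤ d b) (s : U → U → ℝ) :
    ∑ z, rho E side m W z * esum E s z =
      dens E side m W * E.card * ∑ p : U × U, law m W p * s p.1 p.2 := by
  have h1 := (hX.moments h hd s (fun _ _ => 0)).1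
  simp only [vsum_zero, sub_zero, mul_zero, Finset.sum_const_zero, add_zero] at h1
  have h2 := hX.pos
  rw [mul_assoc, h1]
  field_simp

/-- the two margins -/
theorem Extremal.margin (hX : Extremal E side d m W) (h : Biregular E side d)
    (hd : ∀ b, 2 ≤ d b) (hE : 0 < E.card) (c : Bool → U → ℝ) (b : Bool)
    (hc : c (!b) = fun _ => 0) :
    ∑ p : U × U, law m W p * (c false p.1 + c true p.2) = ∑ x, m b x * c b x := by
  have h0 := hX.pos
  -- vertex sums through edge sums
  have h1 := hX.crit h hd (fun x y => c false x + c true y)
  have h2 := (hX.moments h hd (fun _ _ => 0) c).1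
  simp only [mul_zero, Finset.sum_const_zero, esum_zero, zero_sub, mul_neg,
    Finset.sum_neg_distrib] at h2
  have h3 : ∀ z, vsum side d c z = ((d b : ℝ) - 1) / d b *
      esum E (fun x y => c false x + c true y) z := by
    intro z
    have hdb : (d b : ℝ) ≠ 0 := by
      have := hd b
      have h1 : d b ≠ 0 := by omega
      exact_mod_cast h1
    unfold vsum esum
    rw [h.sum_ends c z, Finset.mul_sum]
    refine Finset.sum_congr rfl fun v _ => ?_
    by_cases hv : side v = b
    · rw [hv]
      field_simp
    · have hv' : side v = !b := by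
        revert hv
        cases side v <;> cases b <;> simp
      rw [hv', hc]
      ring
  have h4 : ∑ z, rho E side m W z * vsum side d c z =
      ((d b : ℝ) - 1) / d b * ∑ z, rho E side m W z * esum E (fun x y => c false x + c true y) z := by
    rw [Finset.mul_sum]
    refine Finset.sum_congr rfl fun z _ => ?_
    rw [h3]
    ring
  rw [h4, h1] at h2
  have h5 : ((E.card - sideCard side false : ℕ) : ℝ) * ∑ x, m false x * c false x +
      ((E.card - sideCard side true : ℕ) : ℝ) * ∑ x, m true x * c true x =
      ((E.card - sideCard side b : ℕ) : ℝ) * ∑ x, m b x * c b x := by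
    cases b
    · simp only [Bool.not_false] at hc
      rw [hc]
      simp
    · simp only [Bool.not_true] at hc
      rw [hc]
      simp
  have h6 : ((E.card - sideCard side b : ℕ) : ℝ) = ((d b : ℝ) - 1) * sideCard side b := by
    rw [h.card_sub b]
    push_cast
    rw [Nat.cast_sub (by have := hd b; omega)]
    simp
  have h7 : (E.card : ℝ) = d b * sideCard side b := by
    rw [h.card_eq b]
    push_cast
    ring
  have h8 : (0 : ℝ) < (d b : ℝ) - 1 := by
    have := hd b
    have h1 : (2 : ℝ) ≤ d b := by exact_mod_cast this
    linarith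
  have h9 : (0 : ℝ) < d b := by linarith
  have h10 : (0 : ℝ) < sideCard side b := by
    have h11 : (0 : ℝ) < E.card := by exact_mod_cast hE
    rw [h7] at h11
    exact (mul_pos_iff_of_pos_left h9).1 h11
  rw [add_assoc, h5, h6, h7] at h2
  have h12 : ((d b : ℝ) - 1) * sideCard side b *
      (∑ x, m b x * c b x - ∑ p : U × U, law m W p * (c false p.1 + c true p.2)) = 0 := by
    have h13 : ((d b : ℝ) - 1) / d b * (dens E side m W * (d b * sideCard side b) *
        ∑ p : U × U, law m W p * (c false p.1 + c true p.2)) / dens E side m W =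
        ((d b : ℝ) - 1) * sideCard side b *
          ∑ p : U × U, law m W p * (c false p.1 + c true p.2) := by
      field_simp
    rw [neg_div, h13] at h2
    linarith
  have h14 := (mul_eq_zero.1 h12).resolve_left (by positivity)
  linarith

theorem Extremal.margin_false (hX : Extremal E side d m W) (h : Biregular E side d)
    (hd : ∀ b, 2 ≤ d b) (hE : 0 < E.card) (a : U → ℝ) :
    ∑ p : U × U, law m W p * a p.1 = ∑ x, m false x * a x := by
  have := hX.margin h hd hE (fun b => if b = false then a else fun _ => 0) false (by simp)
  simpa using this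

theorem Extremal.margin_true (hX : Extremal E side d m W) (h : Biregular E side d)
    (hd : ∀ b, 2 ≤ d b) (hE : 0 < E.card) (a : U → ℝ) :
    ∑ p : U × U, law m W p * a p.2 = ∑ x, m true x * a x := by
  have := hX.margin h hd hE (fun b => if b = true then a else fun _ => 0) true (by simp)
  simpa using this

open Classical in
/-- no dense blocks -/
theorem Extremal.block (hX : Extremal E side d m W) (h : Biregular E side d)
    (hd : ∀ b, 2 ≤ d b) (hE : 0 < E.card) (S T : Finset U) :
    (∑ x ∈ S, ∑ y ∈ T, m false x * m true y * W x y) ^ (E.card - 1) ≤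
      (∑ x ∈ S, m false x) ^ (E.card - sideCard side false) *
        (∑ y ∈ T, m true y) ^ (E.card - sideCard side true) := by
  set g : U → U → ℝ := fun x y => if x ∈ S ∧ y ∈ T then 1 else 0 with hg
  set f : Bool → U → ℝ := fun b x => if b = false then (if x ∈ S then 1 else 0)
    else (if x ∈ T then 1 else 0) with hf
  have hg0 : ∀ x y, 0 ≤ g x y := fun x y => by simp only [hg]; split_ifs <;> norm_num
  have hf0 : ∀ b x, 0 ≤ f b x := fun b x => by simp only [hf]; split_ifs <;> norm_num
  have key := hX.minimal g f hg0 hf0
  set Q := ∑ x ∈ S, ∑ y ∈ T, m false x * m true y * W x y with hQ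
  have h1 : ∑ x, ∑ y, m false x * m true y * W x y *
      (g x y * f false x ^ (d false - 1) * f true y ^ (d true - 1)) = Q := by
    have h2 : ∀ x y, m false x * m true y * W x y *
        (g x y * f false x ^ (d false - 1) * f true y ^ (d true - 1)) =
        if x ∈ S then (if y ∈ T then m false x * m true y * W x y else 0) else 0 := by
      intro x y
      by_cases hx : x ∈ S <;> by_cases hy : y ∈ T <;> simp [hg, hf, hx, hy]
    have h3 : ∀ x, ∑ y, (if x ∈ S then (if y ∈ T then m false x * m true y * W x y else 0) else 0)
        = if x ∈ S then ∑ y ∈ T, m false x * m true y * W x y else 0 := by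
      intro x
      by_cases hx : x ∈ S <;> simp [hx, Finset.sum_ite_mem]
    simp_rw [h2, h3]
    rw [Finset.sum_ite_mem, Finset.univ_inter]
  have h2 : ∑ x, m false x * f false x ^ d false = ∑ x ∈ S, m false x := by
    have hdb : d false ≠ 0 := by have := hd false; omega
    have h4 : ∀ x, m false x * f false x ^ d false = if x ∈ S then m false x else 0 := by
      intro x
      by_cases hx : x ∈ S <;> simp [hf, hx, hdb]
    simp_rw [h4]
    rw [Finset.sum_ite_mem, Finset.univ_inter]
  have h3 : ∑ x, m true x * f true x ^ d true = ∑ x ∈ T, m true x := by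
    have hdb : d true ≠ 0 := by have := hd true; omega
    have h4 : ∀ x, m true x * f true x ^ d true = if x ∈ T then m true x else 0 := by
      intro x
      by_cases hx : x ∈ T <;> simp [hf, hx, hdb]
    simp_rw [h4]
    rw [Finset.sum_ite_mem, Finset.univ_inter]
  have hQ0 : 0 ≤ Q := Finset.sum_nonneg fun x _ => Finset.sum_nonneg fun y _ =>
    mul_nonneg (mul_nonneg (hX.m_nonneg _ _) (hX.m_nonneg _ _)) (hX.W_nonneg _ _)
  -- the density of maps with all edges in the block
  have h4 : dens E side m (fun x y => W x y * g x y) ≤ dens E side m W * Q := by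
    have h5 := hX.crit h hd g
    have h6 : ∑ p : U × U, law m W p * g p.1 p.2 = Q := by
      rw [← h1, Fintype.sum_prod_type]
      refine Finset.sum_congr rfl fun x _ => Finset.sum_congr rfl fun y _ => ?_
      have hd1 : d false - 1 ≠ 0 := by have := hd false; omega
      have hd2 : d true - 1 ≠ 0 := by have := hd true; omega
      by_cases hx : x ∈ S <;> by_cases hy : y ∈ T <;> simp [hg, hf, hx, hy, law]
    rw [h6] at h5
    have hE0 : (0 : ℝ) < E.card := by exact_mod_cast hE
    have h7 : (E.card : ℝ) * dens E side m (fun x y => W x y * g x y) ≤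
        ∑ z, rho E side m W z * esum E g z := by
      rw [dens_mul, Finset.mul_sum]
      refine Finset.sum_le_sum fun z _ => ?_
      rw [mul_left_comm]
      refine mul_le_mul_of_nonneg_left ?_ (hX.rho_nonneg z)
      by_cases hz : ∃ e ∈ E, g (z e.1) (z e.2) = 0
      · obtain ⟨e, he, he0⟩ := hz
        rw [Finset.prod_eq_zero he he0, mul_zero]
        exact Finset.sum_nonneg fun _ _ => hg0 _ _
      · push Not at hz
        have h8 : ∀ e ∈ E, g (z e.1) (z e.2) = 1 := by
          intro e he
          have := hz e he
          simp only [hg] at this ⊢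
          split_ifs at this ⊢ with h9
          · rfl
          · exact absurd rfl this
        unfold esum
        rw [Finset.prod_congr rfl h8, Finset.sum_congr rfl h8]
        simp
    rw [h5] at h7
    have h8 : (E.card : ℝ) * dens E side m (fun x y => W x y * g x y) ≤
        E.card * (dens E side m W * Q) := by
      linarith
    exact le_of_mul_le_mul_left h8 hE0
  rw [h1, h2, h3] at key
  have hA0 : 0 ≤ ∑ x ∈ S, m false x := Finset.sum_nonneg fun _ _ => hX.m_nonneg _ _
  have hB0 : 0 ≤ ∑ x ∈ T, m true x := Finset.sum_nonneg fun _ _ => hX.m_nonneg _ _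
  have hpos := hX.pos
  rcases hQ0.eq_or_lt with hQ1 | hQ1
  · rw [← hQ1, zero_pow (by
      have := h.card_eq false
      have h2 := hd false
      have h3 : sideCard side false ≠ 0 := by
        intro h4
        rw [h4] at this
        omega
      have h4 : 1 ≤ sideCard side false := by omega
      have h5 : 2 ≤ E.card := by nlinarith
      omega)]
    positivity
  · have h9 : dens E side m W * Q * Q ^ (E.card - 1) ≤ dens E side m W * Q *
        ((∑ x ∈ S, m false x) ^ (E.card - sideCard side false) *
        (∑ y ∈ T, m true y) ^ (E.card - sideCard side true)) := by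
      have h10 : Q ^ E.card = Q * Q ^ (E.card - 1) := by
        rw [← pow_succ', Nat.sub_add_cancel hE]
      rw [h10] at key
      calc dens E side m W * Q * Q ^ (E.card - 1) = dens E side m W * (Q * Q ^ (E.card - 1)) := by
            ring
        _ ≤ _ := key
        _ ≤ dens E side m W * Q * (∑ x ∈ S, m false x) ^ (E.card - sideCard side false) *
            (∑ y ∈ T, m true y) ^ (E.card - sideCard side true) := by
            gcongr
        _ = _ := by ring
    exact le_of_mul_le_mul_left h9 (by positivity)

end

end Vale.Agent.P050.H523
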