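import Vale.Agent.P050.H523.Min

/-!
From a violation of the two-sided Sidorenko inequality to an extremal kernel of density less than
one.
-/

namespace Vale.Agent.P050.H523

open Finset

section

variable {V : Type} [Fintype V] [DecidableEq V] {E : Finset (V × V)} {side : V → Bool}
  {d : Bool → ℕ} {U : Type} [Fintype U]

theorem Biregular.exists_edge (h : Biregular E side d) (hd : ∀ b, 2 ≤ d b) (v : V) :
    ∃ e ∈ E, e.1 = v ∨ e.2 = v := by
  have h1 := h.deg v
  have h2 := hd (side v)
  have h3 : 0 < (E.filter fun e => e.1 = v ∨ e.2 = v).card := by omega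
  obtain ⟨e, he⟩ := Finset.card_pos.1 h3
  exact ⟨e, (Finset.mem_filter.1 he).1, (Finset.mem_filter.1 he).2⟩

theorem Biregular.sideCard_le (h : Biregular E side d) (hd : ∀ b, 2 ≤ d b) (b : Bool) :
    sideCard side b ≤ E.card := by
  rw [h.card_eq b]
  have := hd b
  nlinarith [Nat.zero_le (sideCard side b)]

/-- kernel and power sums of the data of the minimiser, after normalisation -/
theorem dens_eq (h : Biregular E side d) (hd : ∀ b, 2 ≤ d b) (K : U × U → ℝ) (F : Bool → U → ℝ)
    (P : Bool → ℝ) (hP : ∀ b, 0 < P b) (B : ℝ) (hB : 0 < B)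
    (hK : ∀ p, K p ≠ 0 → 0 < F false p.1 ∧ 0 < F true p.2) (g : U → U → ℝ) :
    dens E side (fun b u => F b u ^ d b / P b)
        (fun x y => K (x, y) * (P false * P true) / (B * (F false x * F true y)) * g x y) =
      cnt E (fun p => K p * g p.1 p.2) *
        (P false ^ (E.card - sideCard side false) * P true ^ (E.card - sideCard side true)
          / B ^ E.card) := by
  unfold dens cnt
  rw [Finset.sum_mul]
  refine Finset.sum_congr rfl fun z _ => ?_
  by_cases hz : ∃ e ∈ E, K (z e.1, z e.2) = 0
  · obtain ⟨e, he, he0⟩ := hz
    rw [Finset.prod_eq_zero (i := e) he (by simp only [he0]; ring),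
      Finset.prod_eq_zero (i := e) he (by simp only [he0]; ring)]
    ring
  · push Not at hz
    have hpos : ∀ v, 0 < F (side v) (z v) := by
      intro v
      obtain ⟨e, he, hv⟩ := h.exists_edge hd v
      have h1 := hK _ (hz e he)
      have h2 := h.sides e he
      rcases hv with hv | hv
      · rw [← hv, h2.1]; exact h1.1
      · rw [← hv, h2.2]; exact h1.2
    have h1 : ∏ v, (fun b u => F b u ^ d b / P b) (side v) (z v) =
        (∏ e ∈ E, F false (z e.1) * F true (z e.2)) /
          (P false ^ sideCard side false * P true ^ sideCard side true) := by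
      rw [h.prod_ends, ← prod_side side P, ← Finset.prod_div_distrib]
    have h2 : ∏ e ∈ E, K (z e.1, z e.2) * (P false * P true) /
          (B * (F false (z e.1) * F true (z e.2))) * g (z e.1) (z e.2) =
        (∏ e ∈ E, K (z e.1, z e.2) * g (z e.1) (z e.2)) * ((P false * P true) / B) ^ E.card /
          ∏ e ∈ E, F false (z e.1) * F true (z e.2) := by
      rw [← Finset.prod_const, ← Finset.prod_mul_distrib, ← Finset.prod_div_distrib]
      refine Finset.prod_congr rfl fun e he => ?_
      have h3 := h.sides e he
      have h4 := hpos e.1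
      have h5 := hpos e.2
      rw [h3.1] at h4
      rw [h3.2] at h5
      field_simp
    have h3 : 0 < ∏ e ∈ E, F false (z e.1) * F true (z e.2) := by
      refine Finset.prod_pos fun e he => ?_
      have h3 := h.sides e he
      have h4 := hpos e.1
      have h5 := hpos e.2
      rw [h3.1] at h4
      rw [h3.2] at h5
      positivity
    have h4 := hP false
    have h5 := hP true
    have h6 : ∀ b, P b ^ E.card = P b ^ (E.card - sideCard side b) * P b ^ sideCard side b := by
      intro b
      rw [← pow_add, Nat.sub_add_cancel (h.sideCard_le hd b)]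
    rw [h1, h2, div_pow, mul_pow, h6 false, h6 true]
    field_simp

omit [Fintype U] in
theorem pi_eq (hd : ∀ b, 2 ≤ d b) (K : U × U → ℝ) (F : Bool → U → ℝ)
    (P : Bool → ℝ) (hP : ∀ b, 0 < P b) (B : ℝ) (hB : 0 < B)
    (hK : ∀ p, K p ≠ 0 → 0 < F false p.1 ∧ 0 < F true p.2) (x y : U) :
    F false x ^ d false / P false * (F true y ^ d true / P true) *
        (K (x, y) * (P false * P true) / (B * (F false x * F true y))) =
      F false x ^ (d false - 1) * K (x, y) * F true y ^ (d true - 1) / B := by
  by_cases hz : K (x, y) = 0
  · rw [hz]; ring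
  · have h1 := hK _ hz
    obtain ⟨h2, h3⟩ := h1
    have h4 := hP false
    have h5 := hP true
    have h6 : F false x ^ d false = F false x ^ (d false - 1) * F false x := by
      rw [← pow_succ, Nat.sub_add_cancel (by have := hd false; omega)]
    have h7 : F true y ^ d true = F true y ^ (d true - 1) * F true y := by
      rw [← pow_succ, Nat.sub_add_cancel (by have := hd true; omega)]
    rw [h6, h7]
    simp only at h2 h3
    field_simp

/-- density of an arbitrary kernel with respect to the weights `F ^ d / P` -/
theorem dens_all (h : Biregular E side d) (F : Bool → U → ℝ) (P : Bool → ℝ) (hP : ∀ b, 0 < P b)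
    (K : U → U → ℝ) :
    dens E side (fun b u => F b u ^ d b / P b) K *
        (P false ^ sideCard side false * P true ^ sideCard side true) =
      cnt E (fun p => K p.1 p.2 * (F false p.1 * F true p.2)) := by
  unfold dens cnt
  rw [Finset.sum_mul]
  refine Finset.sum_congr rfl fun z _ => ?_
  have h1 : ∏ v, (fun b u => F b u ^ d b / P b) (side v) (z v) =
      (∏ v, F (side v) (z v) ^ d (side v)) /
        (P false ^ sideCard side false * P true ^ sideCard side true) := by
    rw [← prod_side side P, ← Finset.prod_div_distrib]
  have h2 : 0 < P false ^ sideCard side false * P true ^ sideCard side true := by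
    have := hP false
    have := hP true
    positivity
  rw [h1, Finset.prod_mul_distrib, h.prod_ends F z]
  generalize P false ^ sideCard side false * P true ^ sideCard side true = D at h2
  rw [div_mul_eq_mul_div, div_mul_cancel₀ _ h2.ne', mul_comm]

/-- the minimality of the functional, for all kernels on the ground set -/
theorem all_kernels (h : Biregular E side d) (hd : ∀ b, 2 ≤ d b) (F : Bool → U → ℝ)
    (hF : ∀ b u, 0 ≤ F b u) (P : Bool → ℝ) (hP : ∀ b, 0 < P b) (c : ℝ)
    (hmin : ∀ (K : U × U → ℝ) (G : Bool → U → ℝ), (∀ p, 0 ≤ K p) → (∀ b u, 0 ≤ G b u) →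
      c * bil d K G ^ E.card ≤ num E side d K G)
    (K : U → U → ℝ) (f : Bool → U → ℝ) (hK : ∀ x y, 0 ≤ K x y) (hf : ∀ b x, 0 ≤ f b x) :
    c * (∑ x, ∑ y, F false x ^ d false / P false * (F true y ^ d true / P true) * K x y *
        (f false x ^ (d false - 1) * f true y ^ (d true - 1))) ^ E.card ≤
      dens E side (fun b u => F b u ^ d b / P b) K *
        (∑ x, F false x ^ d false / P false * f false x ^ d false) ^
          (E.card - sideCard side false) *
        (∑ y, F true y ^ d true / P true * f true y ^ d true) ^
          (E.card - sideCard side true) := by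
  have h1 := hmin (fun p => K p.1 p.2 * (F false p.1 * F true p.2))
    (fun b u => F b u * f b u)
    (fun p => mul_nonneg (hK _ _) (mul_nonneg (hF _ _) (hF _ _)))
    (fun b u => mul_nonneg (hF _ _) (hf _ _))
  have h2 : bil d (fun p : U × U => K p.1 p.2 * (F false p.1 * F true p.2))
      (fun b u => F b u * f b u) =
      (P false * P true) * ∑ x, ∑ y, F false x ^ d false / P false *
        (F true y ^ d true / P true) * K x y *
        (f false x ^ (d false - 1) * f true y ^ (d true - 1)) := by
    unfold bil
    rw [Fintype.sum_prod_type, Finset.mul_sum]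
    refine Finset.sum_congr rfl fun x _ => ?_
    rw [Finset.mul_sum]
    refine Finset.sum_congr rfl fun y _ => ?_
    have h5 : P false ≠ 0 := (hP false).ne'
    have h6 : P true ≠ 0 := (hP true).ne'
    have h7 : F false x ^ d false = F false x ^ (d false - 1) * F false x := by
      rw [← pow_succ, Nat.sub_add_cancel (by have := hd false; omega)]
    have h8 : F true y ^ d true = F true y ^ (d true - 1) * F true y := by
      rw [← pow_succ, Nat.sub_add_cancel (by have := hd true; omega)]
    rw [mul_pow, mul_pow, h7, h8]
    generalize F false x ^ (d false - 1) = a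
    generalize F true y ^ (d true - 1) = b
    field_simp
  have h3 : ∀ b, psum d (fun b u => F b u * f b u) b =
      P b * ∑ x, F b x ^ d b / P b * f b x ^ d b := by
    intro b
    rw [Finset.mul_sum]
    unfold psum
    refine Finset.sum_congr rfl fun x _ => ?_
    have h5 : P b ≠ 0 := (hP b).ne'
    rw [mul_pow]
    field_simp
  have h4 := dens_all h F P hP K
  unfold num at h1
  rw [h2, h3, h3, mul_pow, mul_pow, mul_pow, mul_pow, ← h4] at h1
  have h6 : ∀ b, P b ^ E.card = P b ^ (E.card - sideCard side b) * P b ^ sideCard side b := by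
    intro b
    rw [← pow_add, Nat.sub_add_cancel (h.sideCard_le hd b)]
  have h9 : 0 < P false ^ E.card * P true ^ E.card := by
    have := hP false
    have := hP true
    positivity
  rw [← mul_le_mul_iff_of_pos_left h9]
  refine le_trans (le_of_eq ?_) (h1.trans (le_of_eq ?_))
  · ring
  · rw [h6 false, h6 true]
    ring

/-- On the ground set of each kernel there is an extremal kernel whose density is at most the
normalised density of the given kernel. -/
theorem exists_extremal (h : Biregular E side d) (hd : ∀ b, 2 ≤ d b) (hE : 0 < E.card)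
    (m₀ : Bool → U → ℝ) (W₀ : U → U → ℝ) (hm₀ : ∀ b x, 0 ≤ m₀ b x) (hs₀ : ∀ b, ∑ x, m₀ b x = 1)
    (hW₀ : ∀ x y, 0 ≤ W₀ x y) :
    ∃ (m : Bool → U → ℝ) (W : U → U → ℝ), Extremal E side d m W ∧
      dens E side m W * (∑ x, ∑ y, m₀ false x * m₀ true y * W₀ x y) ^ E.card ≤
        dens E side m₀ W₀ := by
  classical
  have hne : Nonempty U := by
    by_contra hcon
    rw [not_nonempty_iff] at hcon
    have := hs₀ false
    simp at this
  obtain ⟨K₀, F, c, hK₀, hF, hB₀, hc0, heq₀, hmin⟩ := exists_min (U := U) h hd hE
  have hdne : ∀ b, d b ≠ 0 := fun b => by have := hd b; omega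
  -- comparison with the initial data
  have hc1 : c * (∑ x, ∑ y, m₀ false x * m₀ true y * W₀ x y) ^ E.card ≤
      dens E side m₀ W₀ := by
    set Fi : Bool → U → ℝ := fun b u => m₀ b u ^ ((d b : ℝ)⁻¹) with hFi
    have hFi0 : ∀ b u, 0 ≤ Fi b u := fun b u => Real.rpow_nonneg (hm₀ b u) _
    have hFip : ∀ b u, Fi b u ^ d b = m₀ b u := fun b u =>
      Real.rpow_inv_natCast_pow (hm₀ b u) (hdne b)
    have h1 := hmin (fun p => W₀ p.1 p.2 * (Fi false p.1 * Fi true p.2)) Fi
      (fun p => mul_nonneg (hW₀ _ _) (mul_nonneg (hFi0 _ _) (hFi0 _ _))) hFi0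
    have h2 : bil d (fun p : U × U => W₀ p.1 p.2 * (Fi false p.1 * Fi true p.2)) Fi =
        ∑ x, ∑ y, m₀ false x * m₀ true y * W₀ x y := by
      unfold bil
      rw [Fintype.sum_prod_type]
      refine Finset.sum_congr rfl fun x _ => Finset.sum_congr rfl fun y _ => ?_
      rw [← hFip false x, ← hFip true y]
      have h6 : Fi false x ^ d false = Fi false x ^ (d false - 1) * Fi false x := by
        rw [← pow_succ, Nat.sub_add_cancel (by have := hd false; omega)]
      have h7 : Fi true y ^ d true = Fi true y ^ (d true - 1) * Fi true y := by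
        rw [← pow_succ, Nat.sub_add_cancel (by have := hd true; omega)]
      rw [h6, h7]
      ring
    have h3 : num E side d (fun p : U × U => W₀ p.1 p.2 * (Fi false p.1 * Fi true p.2)) Fi =
        dens E side m₀ W₀ := by
      unfold num
      have h4 : ∀ b, psum d Fi b = 1 := by
        intro b
        unfold psum
        rw [← hs₀ b]
        exact Finset.sum_congr rfl fun u _ => hFip b u
      rw [h4, h4, one_pow, one_pow, mul_one, mul_one]
      unfold cnt dens
      refine Finset.sum_congr rfl fun z _ => ?_
      rw [Finset.prod_mul_distrib, h.prod_ends]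
      rw [mul_comm]
      congr 1
      exact Finset.prod_congr rfl fun v _ => hFip _ _
    rw [h2, h3] at h1
    exact h1
  -- restrict the kernel to the supports
  set K : U × U → ℝ := fun p => if 0 < F false p.1 ∧ 0 < F true p.2 then K₀ p else 0 with hKdef
  have hK : ∀ p, 0 ≤ K p := by
    intro p
    simp only [hKdef]
    split_ifs
    · exact hK₀ p
    · exact le_rfl
  have hKs : ∀ p, K p ≠ 0 → 0 < F false p.1 ∧ 0 < F true p.2 := by
    intro p hp
    simp only [hKdef] at hp
    by_contra hcon
    rw [if_neg hcon] at hp
    exact hp rfl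
  have hbil : bil d K F = bil d K₀ F := by
    unfold bil
    refine Finset.sum_congr rfl fun p _ => ?_
    simp only [hKdef]
    split_ifs with h1
    · rfl
    · rw [not_and_or] at h1
      rcases h1 with h1 | h1
      · have h2 : F false p.1 = 0 := le_antisymm (not_lt.1 h1) (hF _ _)
        rw [h2, zero_pow (by have := hd false; omega)]
        ring
      · have h2 : F true p.2 = 0 := le_antisymm (not_lt.1 h1) (hF _ _)
        rw [h2, zero_pow (by have := hd true; omega)]
        ring
  set B := bil d K F with hBdef
  have hB : 0 < B := by rw [hbil]; exact hB₀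
  have hnum : num E side d K F = c * B ^ E.card := by
    refine le_antisymm ?_ (hmin K F hK hF)
    rw [hbil, ← heq₀]
    unfold num
    have h1 : cnt E K ≤ cnt E K₀ := cnt_mono hK fun p => by
      simp only [hKdef]
      split_ifs
      · exact le_rfl
      · exact hK₀ p
    have h2 := psum_nonneg (d := d) hF false
    have h3 := psum_nonneg (d := d) hF true
    gcongr
  obtain ⟨q, hq⟩ : ∃ q, K q ≠ 0 := by
    by_contra hcon
    push Not at hcon
    have : B = 0 := by
      rw [hBdef]
      unfold bil
      exact Finset.sum_eq_zero fun p _ => by rw [hcon p]; ring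
    exact hB.ne' this
  have hqF := hKs q hq
  have hP : ∀ b, 0 < psum d F b := by
    intro b
    have h1 : ∀ u, 0 < F b u → 0 < psum d F b := fun u hu =>
      lt_of_lt_of_le (pow_pos hu _)
        (Finset.single_le_sum (f := fun u => F b u ^ d b) (fun u _ => pow_nonneg (hF b u) _)
          (Finset.mem_univ u))
    cases b
    · exact h1 _ hqF.1
    · exact h1 _ hqF.2
  have hcnt : 0 < cnt E K := by
    unfold cnt
    refine lt_of_lt_of_le ?_ (Finset.single_le_sum
      (f := fun z : V → U => ∏ e ∈ E, K (z e.1, z e.2))
      (fun z _ => Finset.prod_nonneg fun _ _ => hK _)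
      (Finset.mem_univ fun v => if side v = false then q.1 else q.2))
    refine Finset.prod_pos fun e he => ?_
    have h1 := h.sides e he
    simp only [h1.1, h1.2, if_true, Bool.true_eq_false, if_false]
    exact lt_of_le_of_ne (hK _) (Ne.symm hq)
  have hcpos : 0 < c := by
    have h1 : 0 < num E side d K F := by
      unfold num
      have := hP false
      have := hP true
      positivity
    rw [hnum] at h1
    exact (mul_pos_iff_of_pos_right (by positivity)).1 h1
  set P : Bool → ℝ := fun b => psum d F b with hPdef
  set m : Bool → U → ℝ := fun b u => F b u ^ d b / P b with hm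
  set W : U → U → ℝ := fun x y =>
    K (x, y) * (P false * P true) / (B * (F false x * F true y)) with hW
  have hdens : ∀ g : U → U → ℝ, dens E side m (fun x y => W x y * g x y) =
      cnt E (fun p => K p * g p.1 p.2) *
        (P false ^ (E.card - sideCard side false) * P true ^ (E.card - sideCard side true)
          / B ^ E.card) := fun g => dens_eq h hd K F P hP B hB hKs g
  have hd1 : dens E side m W = c := by
    have h1 := hdens fun _ _ => 1
    simp only [mul_one] at h1
    rw [h1]
    have h2 : cnt E K * P false ^ (E.card - sideCard side false) *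
      P true ^ (E.card - sideCard side true) = c * B ^ E.card := hnum
    have h3 : cnt E (fun p => K p) = cnt E K := rfl
    rw [h3, ← mul_div_assoc, ← mul_assoc, h2]
    field_simp
  have hπ : ∀ x y, m false x * m true y * W x y =
      F false x ^ (d false - 1) * K (x, y) * F true y ^ (d true - 1) / B := fun x y =>
    pi_eq hd K F P hP B hB hKs x y
  refine ⟨m, W, ⟨?_, ?_, ?_, ?_, ?_, ?_⟩, ?_⟩
  · intro b x
    exact div_nonneg (pow_nonneg (hF b x) _) (hP b).le
  · intro b
    simp only [hm]
    rw [← Finset.sum_div]
    exact div_self (hP b).ne'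
  · intro x y
    have := hP false
    have := hP true
    exact div_nonneg (mul_nonneg (hK _) (mul_nonneg (hP _).le (hP _).le))
      (mul_nonneg hB.le (mul_nonneg (hF _ _) (hF _ _)))
  · simp_rw [hπ]
    have h1 : ∑ x, ∑ y, F false x ^ (d false - 1) * K (x, y) * F true y ^ (d true - 1) / B
        = B / B := by
      rw [hBdef]
      unfold bil
      rw [Fintype.sum_prod_type]
      simp_rw [Finset.sum_div]
    rw [h1, div_self hB.ne']
  · rw [hd1]; exact hcpos
  · intro K' f hK' hf
    rw [hd1]
    exact all_kernels h hd F hF P hP c hmin K' f hK' hf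
  · rw [hd1]; exact hc1

end

end Vale.Agent.P050.H523
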