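import Vale.Agent.P050.H523.Adm
import Vale.Agent.P050.Lev.Final

/-!
The criterion for finite graphs.
-/

namespace Vale.Agent.P050.H523

open Finset Vale.Agent.P050 Vale.Agent.P050.Lev

variable {V : Type} [Fintype V] [DecidableEq V]

/-- a properly 2-coloured graph in which the degree of a vertex depends on its colour only -/
theorem biregular_sideEdges {H : SimpleGraph V} {side : V → Bool} {d : Bool → ℕ}
    (hs : ∀ u v, H.Adj u v → side u ≠ side v)
    (hreg : ∀ v, Nat.card {u : V // H.Adj v u} = d (side v)) :
    Biregular (sideEdges H side) side d := by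
  classical
  have hmem : ∀ e : V × V, e ∈ sideEdges H side ↔
      H.Adj e.1 e.2 ∧ side e.1 = false ∧ side e.2 = true := by
    intro e
    simp [sideEdges]
  refine ⟨fun e he => ((hmem e).1 he).2, fun v => ?_⟩
  rw [← hreg v, Nat.card_eq_fintype_card, Fintype.card_subtype]
  refine Finset.card_nbij' (fun e => if e.1 = v then e.2 else e.1)
    (fun u => if side v = false then (v, u) else (u, v)) ?_ ?_ ?_ ?_
  · intro e he
    simp only [Finset.coe_filter, Set.mem_ofPred_eq] at he
    have h1 := (hmem e).1 he.1
    simp only [Finset.coe_filter, Set.mem_ofPred_eq, Finset.mem_univ, true_and]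
    split_ifs with h2
    · rw [← h2]; exact h1.1
    · rcases he.2 with h3 | h3
      · exact absurd h3 h2
      · rw [← h3]; exact h1.1.symm
  · intro u hu
    simp only [Finset.coe_filter, Set.mem_ofPred_eq, Finset.mem_univ, true_and] at hu
    simp only [Finset.coe_filter, Set.mem_ofPred_eq]
    have h1 := hs v u hu
    cases hv : side v
    · rw [hv] at h1
      have h2 : side u = true := by
        cases hu' : side u
        · rw [hu'] at h1; exact absurd rfl h1
        · rfl
      simp [hmem, hu, hv, h2]
    · rw [hv] at h1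
      have h2 : side u = false := by
        cases hu' : side u
        · rfl
        · rw [hu'] at h1; exact absurd rfl h1
      simp [hmem, hu.symm, hv, h2]
  · intro e he
    simp only [Finset.coe_filter, Set.mem_ofPred_eq] at he
    have h1 := (hmem e).1 he.1
    rcases he.2 with h3 | h3
    · subst h3
      simp [h1.2.1]
    · have h4 : e.1 ≠ v := by
        rw [← h3]
        exact h1.1.ne
      subst h3
      simp [h1.2.2, h4]
  · intro u hu
    simp only [Finset.coe_filter, Set.mem_ofPred_eq, Finset.mem_univ, true_and] at hu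
    have h1 := hs v u hu
    cases hv : side v
    · simp
    · have h2 : u ≠ v := hu.ne'
      simp [h2]

/-- **Criterion.** It is enough to bound the density of homomorphisms to admissible targets from
below by some positive constant. -/
theorem gsid_of_admissible {H : SimpleGraph V} {side : V → Bool} {d : Bool → ℕ}
    (hs : ∀ u v, H.Adj u v → side u ≠ side v)
    (hreg : ∀ v, Nat.card {u : V // H.Adj v u} = d (side v)) (hd : ∀ b, 2 ≤ d b)
    {ε : ℝ} (hε : 0 < ε)
    (hadm : ∀ (U : Type) [Fintype U] (m : Bool → U → ℝ) (W : U → U → ℝ),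
      Admissible (sideEdges H side) side d m W → ε ≤ dens (sideEdges H side) side m W) :
    GSid H side := by
  classical
  have hB := biregular_sideEdges hs hreg
  refine ⟨hs, fun e he => hB.sides e he, ?_⟩
  intro U _ m₀ W₀ hm hm1 hW
  by_contra hcon
  push Not at hcon
  have hcon' : dens (sideEdges H side) side m₀ W₀ <
      (∑ x, ∑ y, m₀ false x * m₀ true y * W₀ x y) ^ (sideEdges H side).card := hcon
  set E := sideEdges H side with hEdef
  have hdens0 : 0 ≤ dens E side m₀ W₀ := by
    unfold dens
    exact Finset.sum_nonneg fun z _ => mul_nonneg (Finset.prod_nonneg fun _ _ => hm _ _)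
      (Finset.prod_nonneg fun _ _ => hW _ _)
  have hmean0 : 0 ≤ ∑ x, ∑ y, m₀ false x * m₀ true y * W₀ x y :=
    Finset.sum_nonneg fun x _ => Finset.sum_nonneg fun y _ =>
      mul_nonneg (mul_nonneg (hm _ _) (hm _ _)) (hW _ _)
  -- there is an edge
  have hE : 0 < E.card := by
    rw [Finset.card_pos]
    by_contra h0
    rw [Finset.not_nonempty_iff_eq_empty] at h0
    rw [h0] at hcon'
    unfold dens at hcon'
    simp only [Finset.prod_empty, mul_one, Finset.card_empty, pow_zero] at hcon'
    have h1 : ∑ z : V → U, ∏ v, m₀ (side v) (z v) = 1 := by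
      rw [← Fintype.prod_sum (fun v x => m₀ (side v) x)]
      exact Finset.prod_eq_one fun v _ => hm1 _
    rw [h1] at hcon'
    exact lt_irrefl _ hcon'
  have hmeanE : 0 < (∑ x, ∑ y, m₀ false x * m₀ true y * W₀ x y) ^ E.card :=
    lt_of_le_of_lt hdens0 hcon'
  have hmean : 0 < ∑ x, ∑ y, m₀ false x * m₀ true y * W₀ x y := by
    rcases hmean0.eq_or_lt with h1 | h1
    · rw [← h1, zero_pow hE.ne'] at hmeanE
      exact absurd hmeanE (lt_irrefl _)
    · exact h1
  set r := dens E side m₀ W₀ / (∑ x, ∑ y, m₀ false x * m₀ true y * W₀ x y) ^ E.card with hr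
  have hr0 : 0 ≤ r := div_nonneg hdens0 hmeanE.le
  have hr1 : r < 1 := by rw [hr, div_lt_one hmeanE]; exact hcon'
  have hr2 : dens E side m₀ W₀ ≤
      r * (∑ x, ∑ y, m₀ false x * m₀ true y * W₀ x y) ^ E.card := by
    rw [hr, div_mul_cancel₀ _ hmeanE.ne']
  obtain ⟨k, hk⟩ := exists_pow_lt_of_lt_one hε hr1
  obtain ⟨U', _, m, W, g1, g2, g3, g4, g5⟩ := exists_violation r k U m₀ W₀ hm hm1 hW hmean hr2
  obtain ⟨m', W', hX, hle⟩ := exists_extremal hB hd hE m W g1 g2 g3
  have h1 := hadm U' m' W' (hX.admissible hB hd hE)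
  have h2 : r ^ (2 ^ k) ≤ r ^ k := pow_le_pow_of_le_one hr0 hr1.le (Nat.lt_two_pow_self).le
  have h3 : 0 < (∑ x, ∑ y, m false x * m true y * W x y) ^ E.card := by positivity
  have h4 : dens E side m' W' * (∑ x, ∑ y, m false x * m true y * W x y) ^ E.card ≤
      r ^ (2 ^ k) * (∑ x, ∑ y, m false x * m true y * W x y) ^ E.card := hle.trans g5
  have h5 := le_of_mul_le_mul_right h4 h3
  linarith

end Vale.Agent.P050.H523
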