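import Vale.Agent.P050.H523.Basic

/-!
Existence of a minimiser of the homogeneous quotient.
-/

namespace Vale.Agent.P050.H523

open Finset

section

variable {V : Type} [Fintype V] [DecidableEq V] (E : Finset (V × V)) (side : V → Bool)
  (d : Bool → ℕ) {U : Type} [Fintype U]

/-- number of homomorphisms, weighted by the kernel only -/
noncomputable def cnt (K : U × U → ℝ) : ℝ := ∑ z : V → U, ∏ e ∈ E, K (z e.1, z e.2)

/-- power sum -/
noncomputable def psum (F : Bool → U → ℝ) (b : Bool) : ℝ := ∑ u, F b u ^ d b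

/-- the bilinear form -/
noncomputable def bil (K : U × U → ℝ) (F : Bool → U → ℝ) : ℝ :=
  ∑ p : U × U, F false p.1 ^ (d false - 1) * K p * F true p.2 ^ (d true - 1)

/-- numerator of the quotient -/
noncomputable def num (K : U × U → ℝ) (F : Bool → U → ℝ) : ℝ :=
  cnt E K * psum d F false ^ (E.card - sideCard side false) *
    psum d F true ^ (E.card - sideCard side true)

variable {E side d}

theorem cnt_nonneg {K : U × U → ℝ} (hK : ∀ p, 0 ≤ K p) : 0 ≤ cnt E K :=
  Finset.sum_nonneg fun _ _ => Finset.prod_nonneg fun _ _ => hK _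

theorem psum_nonneg {F : Bool → U → ℝ} (hF : ∀ b u, 0 ≤ F b u) (b : Bool) : 0 ≤ psum d F b :=
  Finset.sum_nonneg fun _ _ => pow_nonneg (hF _ _) _

theorem bil_nonneg {K : U × U → ℝ} {F : Bool → U → ℝ} (hK : ∀ p, 0 ≤ K p)
    (hF : ∀ b u, 0 ≤ F b u) : 0 ≤ bil d K F :=
  Finset.sum_nonneg fun _ _ => mul_nonneg (mul_nonneg (pow_nonneg (hF _ _) _) (hK _))
    (pow_nonneg (hF _ _) _)

theorem num_nonneg {K : U × U → ℝ} {F : Bool → U → ℝ} (hK : ∀ p, 0 ≤ K p)
    (hF : ∀ b u, 0 ≤ F b u) : 0 ≤ num E side d K F :=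
  mul_nonneg (mul_nonneg (cnt_nonneg hK) (pow_nonneg (psum_nonneg hF _) _))
    (pow_nonneg (psum_nonneg hF _) _)

theorem cnt_mono {K K' : U × U → ℝ} (hK : ∀ p, 0 ≤ K p) (h : ∀ p, K p ≤ K' p) :
    cnt E K ≤ cnt E K' :=
  Finset.sum_le_sum fun _ _ => Finset.prod_le_prod (fun _ _ => hK _) fun _ _ => h _

theorem cnt_smul (t : ℝ) (K : U × U → ℝ) : cnt E (fun p => t * K p) = t ^ E.card * cnt E K := by
  unfold cnt
  rw [Finset.mul_sum]
  refine Finset.sum_congr rfl fun z _ => ?_
  rw [Finset.prod_mul_distrib, Finset.prod_const]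

theorem psum_smul (t : Bool → ℝ) (F : Bool → U → ℝ) (b : Bool) :
    psum d (fun b u => t b * F b u) b = t b ^ d b * psum d F b := by
  unfold psum
  rw [Finset.mul_sum]
  refine Finset.sum_congr rfl fun z _ => ?_
  rw [mul_pow]

theorem bil_smul (s : ℝ) (t : Bool → ℝ) (K : U × U → ℝ) (F : Bool → U → ℝ) :
    bil d (fun p => s * K p) (fun b u => t b * F b u) =
      s * t false ^ (d false - 1) * t true ^ (d true - 1) * bil d K F := by
  unfold bil
  rw [Finset.mul_sum]
  refine Finset.sum_congr rfl fun z _ => ?_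
  rw [mul_pow, mul_pow]
  ring

theorem continuous_cnt : Continuous fun K : U × U → ℝ => cnt E K := by
  unfold cnt
  fun_prop

theorem continuous_psum (b : Bool) : Continuous fun F : Bool → U → ℝ => psum d F b := by
  unfold psum
  fun_prop

theorem continuous_bil : Continuous fun p : (U × U → ℝ) × (Bool → U → ℝ) => bil d p.1 p.2 := by
  unfold bil
  fun_prop

theorem continuous_num : Continuous fun p : (U × U → ℝ) × (Bool → U → ℝ) =>
    num E side d p.1 p.2 := by
  unfold num cnt psum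
  fun_prop

/-- the exponents match -/
theorem exp_match (h : Biregular E side d) (b : Bool) :
    (d b - 1) * E.card = d b * (E.card - sideCard side b) := by
  rw [h.card_sub b, h.card_eq b]
  ring

/-- scaling of the quotient -/
theorem num_smul (h : Biregular E side d) (s : ℝ) (t : Bool → ℝ) (K : U × U → ℝ)
    (F : Bool → U → ℝ) :
    num E side d (fun p => s * K p) (fun b u => t b * F b u) =
      (s * t false ^ (d false - 1) * t true ^ (d true - 1)) ^ E.card * num E side d K F := by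
  unfold num
  rw [cnt_smul, psum_smul, psum_smul, mul_pow, mul_pow, mul_pow, mul_pow, ← pow_mul, ← pow_mul,
    ← pow_mul, ← pow_mul, exp_match h false, exp_match h true]
  ring

/-- power mean inequality for points of the simplex -/
theorem psum_unif_le [Nonempty U] {F : Bool → U → ℝ} (hF : ∀ b u, 0 ≤ F b u) {b : Bool}
    (h1 : ∑ u, F b u = 1) (hd : 1 ≤ d b) :
    psum d (fun (_ : Bool) (_ : U) => ((Fintype.card U : ℝ))⁻¹) b ≤ psum d F b := by
  obtain ⟨k, hk⟩ : ∃ k, d b = k + 1 := ⟨d b - 1, by omega⟩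
  have hN : (0 : ℝ) < Fintype.card U := by exact_mod_cast Fintype.card_pos
  have h3 := pow_sum_div_card_le_sum_pow (s := (univ : Finset U)) (f := F b)
    (fun u _ => hF b u) k
  rw [h1] at h3
  unfold psum
  rw [hk]
  refine le_trans (le_of_eq ?_) h3
  rw [Finset.sum_const, Finset.card_univ, nsmul_eq_mul, inv_pow, one_pow, pow_succ]
  field_simp

/-- the simplices -/
def dom (d : Bool → ℕ) (U : Type) [Fintype U] : Set ((U × U → ℝ) × (Bool → U → ℝ)) :=
  {p | p.1 ∈ stdSimplex ℝ (U × U) ∧ (∀ b, p.2 b ∈ stdSimplex ℝ U) ∧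
    ((Fintype.card U : ℝ)⁻¹) ^ (d false - 1) * ((Fintype.card U : ℝ)⁻¹) ^ (d true - 1) ≤
      bil d p.1 p.2}

theorem isCompact_dom : IsCompact (dom d U) := by
  have h1 : IsCompact ((stdSimplex ℝ (U × U)) ×ˢ
      (Set.pi Set.univ fun _ : Bool => stdSimplex ℝ U)) :=
    (isCompact_stdSimplex ℝ (U × U)).prod (isCompact_univ_pi fun _ => isCompact_stdSimplex ℝ U)
  have h2 : dom d U = ((stdSimplex ℝ (U × U)) ×ˢ
      (Set.pi Set.univ fun _ : Bool => stdSimplex ℝ U)) ∩
      {p | ((Fintype.card U : ℝ)⁻¹) ^ (d false - 1) * ((Fintype.card U : ℝ)⁻¹) ^ (d true - 1) ≤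
        bil d p.1 p.2} := by
    ext p
    simp [dom, Set.mem_prod, and_assoc]
  rw [h2]
  exact h1.inter_right (isClosed_le continuous_const continuous_bil)

theorem bil_unif {K : U × U → ℝ} (hK : ∑ p, K p = 1) :
    bil d K (fun (_ : Bool) (_ : U) => ((Fintype.card U : ℝ))⁻¹) =
      ((Fintype.card U : ℝ)⁻¹) ^ (d false - 1) * ((Fintype.card U : ℝ)⁻¹) ^ (d true - 1) := by
  unfold bil
  rw [← Finset.sum_mul, ← Finset.mul_sum, hK]
  ring

/-- there is a minimiser of the quotient, in homogeneous form -/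
theorem exists_min [Nonempty U] (h : Biregular E side d) (hd : ∀ b, 2 ≤ d b)
    (hE : 0 < E.card) : ∃ (K : U × U → ℝ) (F : Bool → U → ℝ) (c : ℝ), (∀ p, 0 ≤ K p) ∧
      (∀ b u, 0 ≤ F b u) ∧ 0 < bil d K F ∧ 0 ≤ c ∧ num E side d K F = c * bil d K F ^ E.card ∧
      ∀ (K' : U × U → ℝ) (F' : Bool → U → ℝ), (∀ p, 0 ≤ K' p) → (∀ b u, 0 ≤ F' b u) →
        c * bil d K' F' ^ E.card ≤ num E side d K' F' := by
  classical
  set N : ℝ := (Fintype.card U : ℝ) with hN
  have hN0 : 0 < N := by rw [hN]; exact_mod_cast Fintype.card_pos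
  set δ : ℝ := (N⁻¹) ^ (d false - 1) * (N⁻¹) ^ (d true - 1) with hδ
  have hδ0 : 0 < δ := by positivity
  have hunif : ∀ K : U × U → ℝ, K ∈ stdSimplex ℝ (U × U) →
      ((K, fun (_ : Bool) (_ : U) => N⁻¹) : (U × U → ℝ) × (Bool → U → ℝ)) ∈ dom d U := by
    intro K hK
    refine ⟨hK, fun b => ⟨fun _ => by positivity, ?_⟩, ?_⟩
    · rw [Finset.sum_const, Finset.card_univ, nsmul_eq_mul, ← hN]
      field_simp
    · exact (bil_unif hK.2).ge
  have hne : (dom d U).Nonempty := by
    obtain ⟨u⟩ := ‹Nonempty U›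
    exact ⟨_, hunif _ (single_mem_stdSimplex ℝ (u, u))⟩
  have hcont : ContinuousOn (fun p : (U × U → ℝ) × (Bool → U → ℝ) =>
      num E side d p.1 p.2 / bil d p.1 p.2 ^ E.card) (dom d U) := by
    refine ContinuousOn.div continuous_num.continuousOn
      (continuous_bil.pow _).continuousOn ?_
    intro p hp
    have : 0 < bil d p.1 p.2 := lt_of_lt_of_le hδ0 hp.2.2
    positivity
  obtain ⟨p, hp, hmin⟩ := isCompact_dom.exists_isMinOn hne hcont
  have hB : 0 < bil d p.1 p.2 := lt_of_lt_of_le hδ0 hp.2.2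
  have hc0 : 0 ≤ num E side d p.1 p.2 / bil d p.1 p.2 ^ E.card :=
    div_nonneg (num_nonneg hp.1.1 fun b => (hp.2.1 b).1) (by positivity)
  refine ⟨p.1, p.2, num E side d p.1 p.2 / bil d p.1 p.2 ^ E.card, hp.1.1,
    fun b => (hp.2.1 b).1, hB, hc0, ?_, ?_⟩
  · field_simp
  intro K F hK hF
  set c := num E side d p.1 p.2 / bil d p.1 p.2 ^ E.card with hc
  -- points of the simplices
  have main : ∀ (K : U × U → ℝ) (F : Bool → U → ℝ), K ∈ stdSimplex ℝ (U × U) →
      (∀ b, F b ∈ stdSimplex ℝ U) → c * bil d K F ^ E.card ≤ num E side d K F := by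
    intro K F hK hF
    by_cases h1 : δ ≤ bil d K F
    · have h2 : (K, F) ∈ dom d U := ⟨hK, hF, h1⟩
      have h3 := hmin h2
      simp only [Set.mem_ofPred_eq] at h3
      have h4 : 0 < bil d K F := lt_of_lt_of_le hδ0 h1
      rwa [← hc, le_div_iff₀ (by positivity)] at h3
    · have h1' := not_le.1 h1
      have h2 := hmin (hunif K hK)
      simp only [Set.mem_ofPred_eq] at h2
      rw [← hc, bil_unif hK.2, ← hN, ← hδ, le_div_iff₀ (by positivity)] at h2
      have h5 : num E side d K (fun (_ : Bool) (_ : U) => N⁻¹) ≤ num E side d K F := by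
        unfold num
        have h6 := psum_unif_le (d := d) (fun b => (hF b).1) (hF false).2
          (by have := hd false; omega)
        have h7 := psum_unif_le (d := d) (fun b => (hF b).1) (hF true).2
          (by have := hd true; omega)
        rw [← hN] at h6 h7
        have h8 := cnt_nonneg (E := E) hK.1
        have h9 := psum_nonneg (d := d) (F := fun (_ : Bool) (_ : U) => N⁻¹)
          (fun _ _ => by positivity) false
        have h10 := psum_nonneg (d := d) (F := fun (_ : Bool) (_ : U) => N⁻¹)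
          (fun _ _ => by positivity) true
        have h12 := psum_nonneg (d := d) (F := F) (fun b => (hF b).1) false
        gcongr
      refine le_trans ?_ (h2.trans h5)
      have h11 := bil_nonneg (d := d) hK.1 (fun b => (hF b).1)
      gcongr
  by_cases hB0 : bil d K F = 0
  · rw [hB0, zero_pow hE.ne', mul_zero]
    exact num_nonneg hK hF
  have hBp : 0 < bil d K F := lt_of_le_of_ne (bil_nonneg hK hF) (Ne.symm hB0)
  -- total masses are positive
  obtain ⟨q, -, hq⟩ : ∃ q ∈ (univ : Finset (U × U)),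
      F false q.1 ^ (d false - 1) * K q * F true q.2 ^ (d true - 1) ≠ 0 := by
    by_contra hcon
    push Not at hcon
    exact hB0 (Finset.sum_eq_zero hcon)
  have hq1 : F false q.1 ^ (d false - 1) ≠ 0 := fun h0 => hq (by rw [h0, zero_mul, zero_mul])
  have hq2 : K q ≠ 0 := fun h0 => hq (by rw [h0, mul_zero, zero_mul])
  have hq3 : F true q.2 ^ (d true - 1) ≠ 0 := fun h0 => hq (by rw [h0, mul_zero])
  have hk : 0 < ∑ p, K p :=
    lt_of_lt_of_le (lt_of_le_of_ne (hK q) (Ne.symm hq2))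
      (Finset.single_le_sum (fun p _ => hK p) (Finset.mem_univ q))
  have hφ : ∀ b, 0 < ∑ u, F b u := by
    have h1 : ∀ b, (∃ u, F b u ≠ 0) → 0 < ∑ u, F b u := by
      rintro b ⟨u, hu⟩
      exact lt_of_lt_of_le (lt_of_le_of_ne (hF b u) (Ne.symm hu))
        (Finset.single_le_sum (fun u _ => hF b u) (Finset.mem_univ u))
    intro b
    cases b
    · exact h1 _ ⟨q.1, fun h0 => hq1 (by rw [h0, zero_pow (by have := hd false; omega)])⟩
    · exact h1 _ ⟨q.2, fun h0 => hq3 (by rw [h0, zero_pow (by have := hd true; omega)])⟩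
  have h2 := main (fun p => (∑ p, K p)⁻¹ * K p) (fun b u => (∑ u, F b u)⁻¹ * F b u)
    ⟨fun p => mul_nonneg (inv_nonneg.2 hk.le) (hK p), by
      rw [← Finset.mul_sum, inv_mul_cancel₀ hk.ne']⟩
    (fun b => ⟨fun u => mul_nonneg (inv_nonneg.2 (hφ b).le) (hF b u), by
      show ∑ u, (∑ u, F b u)⁻¹ * F b u = 1
      rw [← Finset.mul_sum, inv_mul_cancel₀ (hφ b).ne']⟩)
  rw [num_smul h _ (fun b => (∑ u, F b u)⁻¹), bil_smul _ (fun b => (∑ u, F b u)⁻¹), mul_pow,
    mul_left_comm] at h2
  have h3 : 0 < (∑ p, K p)⁻¹ * ((∑ u, F false u)⁻¹) ^ (d false - 1) *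
      ((∑ u, F true u)⁻¹) ^ (d true - 1) := by
    have := hφ false
    have := hφ true
    positivity
  exact le_of_mul_le_mul_left h2 (pow_pos h3 _)

end

end Vale.Agent.P050.H523
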