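import Vale.Agent.P050.H523.Spec
import Vale.Agent.P050.H523.Ext

/-!
The bound for the singular values of an extremal kernel.
-/

namespace Vale.Agent.P050.H523

open Finset

/-- elementary part of the singular value bound -/
theorem sing_aux {X Y S Z0 Z1 M0 M1 p q E1 : ℝ} (hX : 0 ≤ X) (hY : 0 ≤ Y)
    (hp : 0 ≤ p) (hq : 0 ≤ q) (hM0 : M0 = E1 - p) (hM1 : M1 = E1 - q) (hpM : p < M1)
    (c0 : S ^ 2 ≤ X * Z0) (c1 : S ^ 2 ≤ Y * Z1)
    (cs : S ^ 2 ≤ X * Y)
    (hform : ∀ a b : ℝ, M0 * (a ^ 2 * X + 2 * a * b * S + b ^ 2 * Z0) +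
      M1 * (a ^ 2 * Z1 + 2 * a * b * S + b ^ 2 * Y) ≤ E1 * (a ^ 2 * X + b ^ 2 * Y + 2 * a * b * S)) :
    M0 * M1 * S ^ 2 ≤ p * q * (X * Y) := by
  have hM1' : 0 < M1 := lt_of_le_of_lt hp hpM
  rcases hX.eq_or_lt with h0 | hX0
  · rw [← h0, zero_mul] at cs
    have h1 : S ^ 2 = 0 := le_antisymm cs (sq_nonneg _)
    rw [h1, ← h0]
    simp
  rcases hY.eq_or_lt with h0 | hY0
  · rw [← h0, mul_zero] at cs
    have h1 : S ^ 2 = 0 := le_antisymm cs (sq_nonneg _)
    rw [h1, ← h0]
    simp
  -- the coefficients of the form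
  have hA : 0 ≤ p * X - M1 * Z1 := by
    have := hform 1 0
    nlinarith
  have hB : 0 ≤ q * Y - M0 * Z0 := by
    have := hform 0 1
    nlinarith
  have hdet : (S * (E1 - M0 - M1)) ^ 2 ≤ (p * X - M1 * Z1) * (q * Y - M0 * Z0) := by
    have h1 : ∀ a b : ℝ, 0 ≤ a ^ 2 * (p * X - M1 * Z1) + b ^ 2 * (q * Y - M0 * Z0) +
        2 * a * b * (S * (E1 - M0 - M1)) := by
      intro a b
      have h2 := hform a b
      have hp' : p = E1 - M0 := by linarith
      have hq' : q = E1 - M1 := by linarith
      have h3 : a ^ 2 * (p * X - M1 * Z1) + b ^ 2 * (q * Y - M0 * Z0) +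
          2 * a * b * (S * (E1 - M0 - M1)) = E1 * (a ^ 2 * X + b ^ 2 * Y + 2 * a * b * S) -
          (M0 * (a ^ 2 * X + 2 * a * b * S + b ^ 2 * Z0) +
            M1 * (a ^ 2 * Z1 + 2 * a * b * S + b ^ 2 * Y)) := by
        rw [hp', hq']
        ring
      rw [h3]
      linarith
    set A := p * X - M1 * Z1
    set B := q * Y - M0 * Z0
    set C := S * (E1 - M0 - M1)
    rcases hA.eq_or_lt with h2 | h2
    · -- then `C = 0`
      have h3 : C = 0 := by
        by_contra hC
        have h4 := h1 (-(B + 1) / (2 * C)) 1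
        rw [← h2] at h4
        have h5 : (-(B + 1) / (2 * C)) ^ 2 * 0 + 1 ^ 2 * B + 2 * (-(B + 1) / (2 * C)) * 1 * C
            = -1 := by
          field_simp
          ring
        linarith
      rw [h3, ← h2]
      simp
    · have h4 := h1 (-C / A) 1
      have h5 : (-C / A) ^ 2 * A + 1 ^ 2 * B + 2 * (-C / A) * 1 * C = B - C ^ 2 / A := by
        field_simp
        ring
      rw [h5] at h4
      have h6 : C ^ 2 / A ≤ B := by linarith
      rw [div_le_iff₀ h2] at h6
      linarith
  set s := S ^ 2 with hs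
  have hs0 : 0 ≤ s := sq_nonneg _
  -- multiply by `X * Y`
  have hk : 0 < X * Y := mul_pos hX0 hY0
  have h1 : 0 ≤ p * (X * Y) - M1 * s := by
    have h2 : 0 ≤ (p * X - M1 * Z1) * Y := mul_nonneg hA hY
    nlinarith
  have h2 : 0 ≤ q * (X * Y) - M0 * s := by
    have h2 : 0 ≤ (q * Y - M0 * Z0) * X := mul_nonneg hB hX
    nlinarith
  have h3 : (p * X - M1 * Z1) * Y ≤ p * (X * Y) - M1 * s := by nlinarith
  have h4 : (q * Y - M0 * Z0) * X ≤ q * (X * Y) - M0 * s := by nlinarith
  have h5 : ((p * X - M1 * Z1) * Y) * ((q * Y - M0 * Z0) * X) ≤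
      (p * (X * Y) - M1 * s) * (q * (X * Y) - M0 * s) :=
    mul_le_mul h3 h4 (mul_nonneg hB hX) h1
  have h6 : s * (E1 - M0 - M1) ^ 2 * (X * Y) ≤
      (p * (X * Y) - M1 * s) * (q * (X * Y) - M0 * s) := by
    refine le_trans ?_ h5
    have h7 : (S * (E1 - M0 - M1)) ^ 2 = s * (E1 - M0 - M1) ^ 2 := by rw [hs]; ring
    rw [h7] at hdet
    nlinarith
  -- factorisation
  have h7 : (p * (X * Y) - M1 * s) * (q * (X * Y) - M0 * s) - s * (E1 - M0 - M1) ^ 2 * (X * Y) =
      (X * Y - s) * (p * q * (X * Y) - M0 * M1 * s) := by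
    rw [hM0, hM1]
    ring
  have h8 : 0 ≤ (X * Y - s) * (p * q * (X * Y) - M0 * M1 * s) := by
    rw [← h7]
    linarith
  rcases cs.eq_or_lt with h9 | h9
  · -- equality is impossible
    exfalso
    rw [h9] at h1
    nlinarith
  · have h10 : 0 < X * Y - s := by linarith
    have h11 := nonneg_of_mul_nonneg_right h8 h10
    linarith

section

variable {V : Type} [Fintype V] [DecidableEq V] {E : Finset (V × V)} {side : V → Bool}
  {d : Bool → ℕ} {U : Type} [Fintype U] {m : Bool → U → ℝ} {W : U → U → ℝ}

/-- Cauchy-Schwarz for weights -/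
theorem wcs {ι : Type*} (s : Finset ι) (w f g : ι → ℝ) (hw : ∀ i, 0 ≤ w i) :
    (∑ i ∈ s, w i * f i * g i) ^ 2 ≤ (∑ i ∈ s, w i * f i ^ 2) * ∑ i ∈ s, w i * g i ^ 2 := by
  have h1 := Finset.sum_mul_sq_le_sq_mul_sq s (fun i => Real.sqrt (w i) * f i)
    (fun i => Real.sqrt (w i) * g i)
  have h2 : ∀ i, Real.sqrt (w i) * f i * (Real.sqrt (w i) * g i) = w i * f i * g i := by
    intro i
    rw [show Real.sqrt (w i) * f i * (Real.sqrt (w i) * g i) =
      (Real.sqrt (w i) * Real.sqrt (w i)) * f i * g i by ring, Real.mul_self_sqrt (hw i)]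
  have h3 : ∀ (f : ι → ℝ) i, (Real.sqrt (w i) * f i) ^ 2 = w i * f i ^ 2 := by
    intro f i
    rw [mul_pow, Real.sq_sqrt (hw i)]
  simp_rw [h2, h3] at h1
  exact h1

/-- singular value bound -/
theorem Extremal.singular (hX : Extremal E side d m W) (h : Biregular E side d)
    (hd : ∀ b, 2 ≤ d b) (hE : 0 < E.card) (u v : U → ℝ) (hu : ∑ x, m false x * u x = 0)
    (hv : ∑ y, m true y * v y = 0) :
    ((E.card : ℝ) - sideCard side false) * ((E.card : ℝ) - sideCard side true) *
        (∑ x, ∑ y, m false x * m true y * W x y * (u x * v y)) ^ 2 ≤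
      ((sideCard side false : ℝ) - 1) * ((sideCard side true : ℝ) - 1) *
        ((∑ x, m false x * u x ^ 2) * ∑ y, m true y * v y ^ 2) := by
  classical
  set S := ∑ x, ∑ y, m false x * m true y * W x y * (u x * v y) with hS
  have hS' : S = ∑ p : U × U, law m W p * (u p.1 * v p.2) := by
    rw [Fintype.sum_prod_type]
    rfl
  -- conditional expectations
  set w : U → ℝ := fun x => (∑ y, law m W (x, y) * v y) / m false x with hw
  set w' : U → ℝ := fun y => (∑ x, law m W (x, y) * u x) / m true y with hw'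
  have hw0 : ∀ x, m false x * w x = ∑ y, law m W (x, y) * v y := by
    intro x
    by_cases hx : m false x = 0
    · rw [hx, zero_mul]
      refine (Finset.sum_eq_zero fun y _ => ?_).symm
      simp [law, hx]
    · simp only [hw]
      field_simp
  have hw1 : ∀ y, m true y * w' y = ∑ x, law m W (x, y) * u x := by
    intro y
    by_cases hy : m true y = 0
    · rw [hy, zero_mul]
      refine (Finset.sum_eq_zero fun x _ => ?_).symm
      simp [law, hy]
    · simp only [hw']
      field_simp
  have hmar0 : ∀ x, ∑ y, law m W (x, y) = m false x := by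
    intro x
    have h1 := hX.margin_false h hd hE (fun x' => if x' = x then 1 else 0)
    rw [Fintype.sum_prod_type] at h1
    simpa using h1
  have hmar1 : ∀ y, ∑ x, law m W (x, y) = m true y := by
    intro y
    have h1 := hX.margin_true h hd hE (fun x' => if x' = y then 1 else 0)
    rw [Fintype.sum_prod_type_right] at h1
    simpa using h1
  set X := ∑ x, m false x * u x ^ 2 with hXX
  set Y := ∑ y, m true y * v y ^ 2 with hYY
  set Z0 := ∑ x, m false x * w x ^ 2 with hZ0
  set Z1 := ∑ y, m true y * w' y ^ 2 with hZ1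
  have hX0 : 0 ≤ X := Finset.sum_nonneg fun x _ => mul_nonneg (hX.m_nonneg _ _) (sq_nonneg _)
  have hY0 : 0 ≤ Y := Finset.sum_nonneg fun x _ => mul_nonneg (hX.m_nonneg _ _) (sq_nonneg _)
  have hSw : ∑ x, m false x * u x * w x = S := by
    rw [hS', Fintype.sum_prod_type]
    refine Finset.sum_congr rfl fun x _ => ?_
    rw [mul_right_comm, hw0, Finset.sum_mul]
    refine Finset.sum_congr rfl fun y _ => ?_
    ring
  have hSw' : ∑ y, m true y * v y * w' y = S := by
    rw [hS', Fintype.sum_prod_type_right]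
    refine Finset.sum_congr rfl fun x _ => ?_
    rw [mul_right_comm, hw1, Finset.sum_mul]
    refine Finset.sum_congr rfl fun y _ => ?_
    ring
  have c0 : S ^ 2 ≤ X * Z0 := by
    rw [← hSw]
    exact wcs univ (m false) u w (hX.m_nonneg false)
  have c1 : S ^ 2 ≤ Y * Z1 := by
    rw [← hSw']
    exact wcs univ (m true) v w' (hX.m_nonneg true)
  have hXl : ∑ p : U × U, law m W p * u p.1 ^ 2 = X := hX.margin_false h hd hE (fun x => u x ^ 2)
  have hYl : ∑ p : U × U, law m W p * v p.2 ^ 2 = Y := hX.margin_true h hd hE (fun x => v x ^ 2)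
  have cs : S ^ 2 ≤ X * Y := by
    rw [hS', ← hXl, ← hYl]
    have := wcs univ (law m W) (fun p : U × U => u p.1) (fun p => v p.2) hX.law_nonneg
    simpa [mul_assoc] using this
  have hE1 : ∀ b, (E.card : ℝ) = d b * sideCard side b := by
    intro b
    rw [h.card_eq b]
    push_cast
    ring
  have hcp : ∀ b, (1 : ℝ) ≤ sideCard side b := by
    intro b
    have h1 := h.card_eq b
    have h2 : sideCard side b ≠ 0 := by
      intro h3
      rw [h3] at h1
      omega
    have h3 : 1 ≤ sideCard side b := by omega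
    exact_mod_cast h3
  have hdr : ∀ b, (2 : ℝ) ≤ d b := fun b => by exact_mod_cast hd b
  have hhalf : ∀ b, 2 * (sideCard side b : ℝ) ≤ E.card := by
    intro b
    rw [hE1 b]
    have := hcp b
    have := hdr b
    nlinarith
  have key := sing_aux (X := X) (Y := Y) (S := S) (Z0 := Z0) (Z1 := Z1)
    (M0 := (E.card : ℝ) - sideCard side false) (M1 := (E.card : ℝ) - sideCard side true)
    (p := (sideCard side false : ℝ) - 1) (q := (sideCard side true : ℝ) - 1)
    (E1 := (E.card : ℝ) - 1) hX0 hY0 (by linarith [hcp false]) (by linarith [hcp true])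
    (by ring) (by ring) (by linarith [hhalf false, hhalf true])
    c0 c1 cs
    (by
      intro a b
      have h1 := hX.poincare h hd hE (fun x y => a * u x + b * v y)
        (fun c x => if c = false then a * u x + b * w x else a * w' x + b * v x)
        (by
          simp_rw [mul_add]
          rw [Finset.sum_add_distrib]
          have h2 := hX.margin_false h hd hE (fun x => a * u x)
          have h3 := hX.margin_true h hd hE (fun x => b * v x)
          rw [h2, h3]
          have h4 : ∑ x, m false x * (a * u x) = a * ∑ x, m false x * u x := by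
            rw [Finset.mul_sum]
            exact Finset.sum_congr rfl fun x _ => by ring
          have h5 : ∑ x, m true x * (b * v x) = b * ∑ x, m true x * v x := by
            rw [Finset.mul_sum]
            exact Finset.sum_congr rfl fun x _ => by ring
          rw [h4, h5, hu, hv]
          ring)
        (by
          intro x
          simp only [if_true]
          have h2 : ∑ y, law m W (x, y) * (a * u x + b * v y) =
              a * u x * ∑ y, law m W (x, y) + b * ∑ y, law m W (x, y) * v y := by
            rw [Finset.mul_sum, Finset.mul_sum, ← Finset.sum_add_distrib]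
            exact Finset.sum_congr rfl fun y _ => by ring
          rw [h2, hmar0, ← hw0]
          ring)
        (by
          intro y
          simp only [Bool.true_eq_false, if_false]
          have h2 : ∑ x, law m W (x, y) * (a * u x + b * v y) =
              b * v y * ∑ x, law m W (x, y) + a * ∑ x, law m W (x, y) * u x := by
            rw [Finset.mul_sum, Finset.mul_sum, ← Finset.sum_add_distrib]
            exact Finset.sum_congr rfl fun y _ => by ring
          rw [h2, hmar1, ← hw1]
          ring)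
      simp only [if_true, Bool.true_eq_false, if_false] at h1
      have e1 : ∑ x, m false x * (a * u x + b * w x) ^ 2 =
          a ^ 2 * X + 2 * a * b * S + b ^ 2 * Z0 := by
        rw [hXX, hZ0, ← hSw, Finset.mul_sum, Finset.mul_sum, Finset.mul_sum,
          ← Finset.sum_add_distrib, ← Finset.sum_add_distrib]
        exact Finset.sum_congr rfl fun x _ => by ring
      have e2 : ∑ x, m true x * (a * w' x + b * v x) ^ 2 =
          a ^ 2 * Z1 + 2 * a * b * S + b ^ 2 * Y := by
        rw [hYY, hZ1, ← hSw', Finset.mul_sum, Finset.mul_sum, Finset.mul_sum,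
          ← Finset.sum_add_distrib, ← Finset.sum_add_distrib]
        exact Finset.sum_congr rfl fun x _ => by ring
      have e3 : ∑ p : U × U, law m W p * (a * u p.1 + b * v p.2) ^ 2 =
          a ^ 2 * X + b ^ 2 * Y + 2 * a * b * S := by
        rw [← hXl, ← hYl, hS', Finset.mul_sum, Finset.mul_sum, Finset.mul_sum,
          ← Finset.sum_add_distrib, ← Finset.sum_add_distrib]
        exact Finset.sum_congr rfl fun x _ => by ring
      rw [e1, e2, e3] at h1
      exact h1)
  exact key

end

end Vale.Agent.P050.H523
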