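import Vale.Agent.P050.H523.Cond

/-!
The spectral consequence of the second order condition.
-/

namespace Vale.Agent.P050.H523

open Finset

section

variable {V : Type} [Fintype V] [DecidableEq V] {E : Finset (V × V)} {side : V → Bool}
  {d : Bool → ℕ} {U : Type} [Fintype U] {m : Bool → U → ℝ} {W : U → U → ℝ}

open Classical in
/-- number of edges mapped to a pair -/
noncomputable def ncount (E : Finset (V × V)) (z : V → U) (p : U × U) : ℝ :=
  ∑ e ∈ E, if (z e.1, z e.2) = p then 1 else 0

omit [Fintype V] [DecidableEq V] [Fintype U] in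
theorem ncount_nonneg (z : V → U) (p : U × U) : 0 ≤ ncount E z p :=
  Finset.sum_nonneg fun _ _ => by split_ifs <;> norm_num

omit [Fintype V] [DecidableEq V] in
theorem esum_eq (s : U × U → ℝ) (z : V → U) :
    esum E (fun x y => s (x, y)) z = ∑ p, s p * ncount E z p := by
  classical
  unfold esum ncount
  simp_rw [Finset.mul_sum]
  rw [Finset.sum_comm]
  refine Finset.sum_congr rfl fun e _ => ?_
  simp

/-- pairs of weight zero carry no edge -/
theorem Extremal.rho_ncount (hX : Extremal E side d m W) (h : Biregular E side d)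
    (hd : ∀ b, 2 ≤ d b) {p : U × U} (hp : law m W p = 0) (z : V → U) :
    rho E side m W z * ncount E z p = 0 := by
  classical
  have h1 := hX.crit h hd (fun x y => if (x, y) = p then 1 else 0)
  have h2 : ∑ q : U × U, law m W q * (if (q.1, q.2) = p then (1 : ℝ) else 0) = 0 := by
    refine Finset.sum_eq_zero fun q _ => ?_
    by_cases hq : q = p
    · rw [hq, hp, zero_mul]
    · simp [hq]
  rw [h2, mul_zero] at h1
  have h3 := (Finset.sum_eq_zero_iff_of_nonneg (fun z _ => mul_nonneg (hX.rho_nonneg z)
    (ncount_nonneg z p))).1 (by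
      rw [← h1]
      refine Finset.sum_congr rfl fun z _ => ?_
      congr 1)
  exact h3 z (Finset.mem_univ z)

open Classical in
/-- the Gram operator of the edge counts, with the identity on pairs of weight zero -/
noncomputable def gram (E : Finset (V × V)) (side : V → Bool) (m : Bool → U → ℝ)
    (W : U → U → ℝ) : (U × U → ℝ) →ₗ[ℝ] (U × U → ℝ) where
  toFun s p := (∑ z, rho E side m W z * (∑ q, s q * ncount E z q) * ncount E z p) +
    (if law m W p = 0 then s p else 0)
  map_add' s s' := by
    funext p
    simp only [Pi.add_apply, add_mul, Finset.sum_add_distrib, mul_add]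
    split_ifs <;> ring
  map_smul' t s := by
    funext p
    simp only [Pi.smul_apply, smul_eq_mul, RingHom.id_apply, mul_add, Finset.mul_sum,
      Finset.sum_mul]
    congr 1
    · refine Finset.sum_congr rfl fun z _ => Finset.sum_congr rfl fun q _ => ?_
      ring
    · split_ifs <;> simp

theorem Extremal.gram_injective (hX : Extremal E side d m W) (h : Biregular E side d)
    (hd : ∀ b, 2 ≤ d b) (hE : 0 < E.card) : Function.Injective (gram E side m W) := by
  classical
  rw [injective_iff_map_eq_zero]
  intro s hs
  have h1 : ∀ p, law m W p = 0 → s p = 0 := by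
    intro p hp
    have h2 := congrFun hs p
    simp only [gram, LinearMap.coe_mk, AddHom.coe_mk, hp, if_true, Pi.zero_apply] at h2
    rw [Finset.sum_eq_zero (fun z _ => by
      rw [mul_right_comm, hX.rho_ncount h hd hp z, zero_mul]), zero_add] at h2
    exact h2
  have h2 : ∀ p, s p * (∑ z, rho E side m W z * (∑ q, s q * ncount E z q) * ncount E z p) = 0 := by
    intro p
    by_cases hp : law m W p = 0
    · rw [h1 p hp, zero_mul]
    · have h3 := congrFun hs p
      simp only [gram, LinearMap.coe_mk, AddHom.coe_mk, hp, if_false, Pi.zero_apply,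
        add_zero] at h3
      rw [h3, mul_zero]
  have h3 : ∑ z, rho E side m W z * (∑ q, s q * ncount E z q) ^ 2 = 0 := by
    have h4 : ∑ p, s p * (∑ z, rho E side m W z * (∑ q, s q * ncount E z q) * ncount E z p) = 0 :=
      Finset.sum_eq_zero fun p _ => h2 p
    obtain ⟨X, hXX⟩ : ∃ X : (V → U) → ℝ, ∀ z, ∑ q, s q * ncount E z q = X z := ⟨_, fun _ => rfl⟩
    simp_rw [hXX] at h4 ⊢
    rw [← h4]
    have h5 : ∀ p, s p * (∑ z, rho E side m W z * X z * ncount E z p) =
        ∑ z, rho E side m W z * X z * (s p * ncount E z p) := by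
      intro p
      rw [Finset.mul_sum]
      refine Finset.sum_congr rfl fun z _ => ?_
      ring
    simp_rw [h5]
    rw [Finset.sum_comm]
    refine Finset.sum_congr rfl fun z _ => ?_
    rw [← Finset.mul_sum, hXX]
    ring
  have h4 := (Finset.sum_eq_zero_iff_of_nonneg (fun z _ => mul_nonneg (hX.rho_nonneg z)
    (sq_nonneg _))).1 h3
  funext p
  by_cases hp : law m W p = 0
  · exact h1 p hp
  · have h5 := h4 (fun v => if side v = false then p.1 else p.2) (Finset.mem_univ _)
    have hp1 : m false p.1 ≠ 0 := fun h0 => hp (by unfold law; rw [h0]; ring)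
    have hp2 : m true p.2 ≠ 0 := fun h0 => hp (by unfold law; rw [h0]; ring)
    have hp3 : W p.1 p.2 ≠ 0 := fun h0 => hp (by unfold law; rw [h0]; ring)
    have h6 : rho E side m W (fun v => if side v = false then p.1 else p.2) ≠ 0 := by
      unfold rho
      refine mul_ne_zero (Finset.prod_ne_zero_iff.2 fun v _ => ?_)
        (Finset.prod_ne_zero_iff.2 fun e he => ?_)
      · cases hv : side v
        · simpa [hv] using hp1
        · simpa [hv] using hp2
      · have h7 := h.sides e he
        simpa [h7.1, h7.2] using hp3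
    have h7 := (mul_eq_zero.1 h5).resolve_left h6
    have h8 : ∑ q, s q * ncount E (fun v => if side v = false then p.1 else p.2) q = 0 :=
      pow_eq_zero_iff (two_ne_zero) |>.1 h7
    rw [← esum_eq] at h8
    have h9 : esum E (fun x y => s (x, y)) (fun v => if side v = false then p.1 else p.2) =
        E.card * s p := by
      unfold esum
      rw [Finset.sum_congr rfl (g := fun _ => s p) (fun e he => by
        have h7 := h.sides e he
        simp [h7.1, h7.2])]
      rw [Finset.sum_const, nsmul_eq_mul]
    rw [h9] at h8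
    have hE0 : (E.card : ℝ) ≠ 0 := by exact_mod_cast hE.ne'
    simpa using (mul_eq_zero.1 h8).resolve_left hE0

/-- the second order condition, after solving for the edge function -/
theorem Extremal.poincare (hX : Extremal E side d m W) (h : Biregular E side d)
    (hd : ∀ b, 2 ≤ d b) (hE : 0 < E.card) (φ : U → U → ℝ) (c : Bool → U → ℝ)
    (hφ : ∑ p : U × U, law m W p * φ p.1 p.2 = 0)
    (hc0 : ∀ x, m false x * c false x = ∑ y, law m W (x, y) * φ x y)
    (hc1 : ∀ y, m true y * c true y = ∑ x, law m W (x, y) * φ x y) :
    ((E.card : ℝ) - sideCard side false) * ∑ x, m false x * c false x ^ 2 +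
      ((E.card : ℝ) - sideCard side true) * ∑ y, m true y * c true y ^ 2 ≤
      ((E.card : ℝ) - 1) * ∑ p : U × U, law m W p * φ p.1 p.2 ^ 2 := by
  classical
  set t := dens E side m W with ht
  have ht0 : 0 < t := hX.pos
  have hE0 : (0 : ℝ) < E.card := by exact_mod_cast hE
  obtain ⟨s, hs⟩ := (LinearMap.injective_iff_surjective.1 (hX.gram_injective h hd hE))
    (fun p => t * E.card * (law m W p * φ p.1 p.2) +
      ∑ z, rho E side m W z * vsum side d c z * ncount E z p)
  set Ψ : (V → U) → ℝ := fun z => esum E (fun x y => s (x, y)) z - vsum side d c z with hΨ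
  have h1 : ∀ p, ∑ z, rho E side m W z * Ψ z * ncount E z p =
      t * E.card * (law m W p * φ p.1 p.2) := by
    intro p
    have h2 := congrFun hs p
    simp only [gram, LinearMap.coe_mk, AddHom.coe_mk] at h2
    by_cases hp : law m W p = 0
    · rw [hp, zero_mul, mul_zero]
      refine Finset.sum_eq_zero fun z _ => ?_
      rw [mul_right_comm, hX.rho_ncount h hd hp z, zero_mul]
    · rw [if_neg hp, add_zero] at h2
      have h3 : ∑ z, rho E side m W z * Ψ z * ncount E z p =
          (∑ z, rho E side m W z * (∑ q, s q * ncount E z q) * ncount E z p) -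
          ∑ z, rho E side m W z * vsum side d c z * ncount E z p := by
        rw [← Finset.sum_sub_distrib]
        refine Finset.sum_congr rfl fun z _ => ?_
        simp only [hΨ]
        rw [esum_eq]
        ring
      rw [h3, h2]
      ring
  -- pairing with edge functions
  have h2 : ∀ g : U → U → ℝ, ∑ z, rho E side m W z * Ψ z * esum E g z =
      t * E.card * ∑ p : U × U, law m W p * φ p.1 p.2 * g p.1 p.2 := by
    intro g
    have h3 : ∀ z, esum E g z = ∑ p : U × U, g p.1 p.2 * ncount E z p := fun z =>
      esum_eq (fun p => g p.1 p.2) z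
    simp_rw [h3, Finset.mul_sum]
    rw [Finset.sum_comm]
    refine Finset.sum_congr rfl fun p _ => ?_
    have h4 : ∑ z, rho E side m W z * Ψ z * (g p.1 p.2 * ncount E z p) =
        g p.1 p.2 * ∑ z, rho E side m W z * Ψ z * ncount E z p := by
      rw [Finset.mul_sum]
      refine Finset.sum_congr rfl fun z _ => ?_
      ring
    rw [h4, h1]
    ring
  -- vertex sums are edge sums
  have hd0 : ∀ b, (d b : ℝ) ≠ 0 := fun b => by
    have := hd b
    have h1 : d b ≠ 0 := by omega
    exact_mod_cast h1
  have h3 : ∀ z, vsum side d c z = esum E (fun x y => ((d false : ℝ) - 1) / d false * c false x +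
      ((d true : ℝ) - 1) / d true * c true y) z := by
    intro z
    unfold vsum esum
    rw [h.sum_ends (fun b x => ((d b : ℝ) - 1) / d b * c b x) z]
    refine Finset.sum_congr rfl fun v _ => ?_
    have := hd0 (side v)
    field_simp
  have hcard : ∀ b, (E.card : ℝ) * (((d b : ℝ) - 1) / d b) = (E.card : ℝ) - sideCard side b := by
    intro b
    have h4 : (E.card : ℝ) = d b * sideCard side b := by
      rw [h.card_eq b]
      push_cast
      ring
    have := hd0 b
    rw [h4]
    field_simp
  set A0 := ∑ x, m false x * c false x ^ 2 with hA0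
  set A1 := ∑ y, m true y * c true y ^ 2 with hA1
  -- the two sums of conditional expectations against functions of one variable
  have h4 : ∀ a : U → ℝ, ∑ p : U × U, law m W p * φ p.1 p.2 * a p.1 =
      ∑ x, m false x * c false x * a x := by
    intro a
    rw [Fintype.sum_prod_type]
    refine Finset.sum_congr rfl fun x _ => ?_
    rw [hc0, Finset.sum_mul]
  have h5 : ∀ a : U → ℝ, ∑ p : U × U, law m W p * φ p.1 p.2 * a p.2 =
      ∑ y, m true y * c true y * a y := by
    intro a
    rw [Fintype.sum_prod_type_right]
    refine Finset.sum_congr rfl fun x _ => ?_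
    rw [hc1, Finset.sum_mul]
  have z0 : ∑ x, m false x * c false x = 0 := by
    have := h4 fun _ => 1
    simp only [mul_one] at this
    rw [← this, hφ]
  have z1 : ∑ x, m true x * c true x = 0 := by
    have := h5 fun _ => 1
    simp only [mul_one] at this
    rw [← this, hφ]
  have h6 : ∑ z, rho E side m W z * Ψ z * vsum side d c z =
      t * (((E.card : ℝ) - sideCard side false) * A0 + ((E.card : ℝ) - sideCard side true) * A1) := by
    simp_rw [h3]
    rw [h2]
    have h7 : ∑ p : U × U, law m W p * φ p.1 p.2 * (((d false : ℝ) - 1) / d false * c false p.1 +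
        ((d true : ℝ) - 1) / d true * c true p.2) =
        ((d false : ℝ) - 1) / d false * A0 + ((d true : ℝ) - 1) / d true * A1 := by
      simp_rw [mul_add]
      rw [Finset.sum_add_distrib]
      congr 1
      · have := h4 (fun x => ((d false : ℝ) - 1) / d false * c false x)
        rw [this, hA0, Finset.mul_sum]
        refine Finset.sum_congr rfl fun x _ => ?_
        ring
      · have := h5 (fun x => ((d true : ℝ) - 1) / d true * c true x)
        rw [this, hA1, Finset.mul_sum]
        refine Finset.sum_congr rfl fun x _ => ?_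
        ring
    rw [h7, ← hcard false, ← hcard true]
    ring
  have h7 : ∑ z, rho E side m W z * Ψ z ^ 2 =
      t * (E.card * (∑ p : U × U, law m W p * φ p.1 p.2 * s p) -
        (((E.card : ℝ) - sideCard side false) * A0 +
          ((E.card : ℝ) - sideCard side true) * A1)) := by
    have h8 : ∑ z, rho E side m W z * Ψ z ^ 2 =
        (∑ z, rho E side m W z * Ψ z * esum E (fun x y => s (x, y)) z) -
          ∑ z, rho E side m W z * Ψ z * vsum side d c z := by
      rw [← Finset.sum_sub_distrib]
      refine Finset.sum_congr rfl fun z _ => ?_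
      simp only [hΨ]
      ring
    rw [h8, h2, h6]
    ring
  -- zero means
  have zΨ : ∑ z, rho E side m W z * Ψ z = 0 := by
    have h8 := h2 fun _ _ => 1
    simp only [mul_one] at h8
    rw [hφ, mul_zero] at h8
    have h9 : ∑ z, rho E side m W z * Ψ z * esum E (fun _ _ => (1 : ℝ)) z =
        E.card * ∑ z, rho E side m W z * Ψ z := by
      rw [Finset.mul_sum]
      refine Finset.sum_congr rfl fun z _ => ?_
      unfold esum
      simp
      ring
    rw [h9] at h8
    exact (mul_eq_zero.1 h8).resolve_left hE0.ne'
  have zs : ∑ p : U × U, law m W p * s p = 0 := by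
    have h8 : ∑ z, rho E side m W z * Ψ z =
        (∑ z, rho E side m W z * esum E (fun x y => s (x, y)) z) -
          ∑ z, rho E side m W z * vsum side d c z := by
      rw [← Finset.sum_sub_distrib]
      refine Finset.sum_congr rfl fun z _ => ?_
      simp only [hΨ]
      ring
    have h9 : ∑ z, rho E side m W z * vsum side d c z = 0 := by
      simp_rw [h3]
      rw [hX.crit h hd]
      have h10 : ∑ p : U × U, law m W p * (((d false : ℝ) - 1) / d false * c false p.1 +
          ((d true : ℝ) - 1) / d true * c true p.2) = 0 := by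
        simp_rw [mul_add]
        rw [Finset.sum_add_distrib,
          hX.margin_false h hd hE (fun x => ((d false : ℝ) - 1) / d false * c false x),
          hX.margin_true h hd hE (fun x => ((d true : ℝ) - 1) / d true * c true x)]
        have h11 : ∀ b, ∑ x, m b x * (((d b : ℝ) - 1) / d b * c b x) =
            ((d b : ℝ) - 1) / d b * ∑ x, m b x * c b x := by
          intro b
          rw [Finset.mul_sum]
          refine Finset.sum_congr rfl fun x _ => ?_
          ring
        rw [h11, h11, z0, z1]
        ring
      rw [h10, mul_zero]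
    rw [zΨ, h9, sub_zero, hX.crit h hd] at h8
    have h10 := (mul_eq_zero.1 h8.symm).resolve_left (by positivity)
    exact h10
  -- second order condition
  have h8 := (hX.moments h hd (fun x y => s (x, y)) c).2 zs (by simpa [hΨ] using zΨ) z0 z1
  have hsub : ∀ b, ((E.card - sideCard side b : ℕ) : ℝ) = (E.card : ℝ) - sideCard side b := by
    intro b
    rw [Nat.cast_sub]
    rw [h.card_eq b]
    have := hd b
    nlinarith [Nat.zero_le (sideCard side b)]
  rw [hsub, hsub] at h8
  have h9 : ∑ z, rho E side m W z * (esum E (fun x y => s (x, y)) z - vsum side d c z) ^ 2 =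
      ∑ z, rho E side m W z * Ψ z ^ 2 := rfl
  rw [h9, h7, mul_div_cancel_left₀ _ ht0.ne'] at h8
  set X2 := ∑ p : U × U, law m W p * φ p.1 p.2 ^ 2 with hX2
  set SS := ∑ p : U × U, law m W p * φ p.1 p.2 * s p with hSS
  have h10 : ∑ p : U × U, law m W p * s p ^ 2 ≤ SS := by
    have h11 : (E.card : ℝ) * ∑ p : U × U, law m W p * s (p.1, p.2) ^ 2 ≤ E.card * SS := by
      linarith
    exact le_of_mul_le_mul_left h11 hE0
  have h11 : SS ≤ X2 := by
    have h12 : 0 ≤ ∑ p : U × U, law m W p * (φ p.1 p.2 - s p) ^ 2 :=
      Finset.sum_nonneg fun p _ => mul_nonneg (hX.law_nonneg p) (sq_nonneg _)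
    have h13 : ∑ p : U × U, law m W p * (φ p.1 p.2 - s p) ^ 2 =
        X2 - 2 * SS + ∑ p : U × U, law m W p * s p ^ 2 := by
      rw [hX2, hSS, Finset.mul_sum, ← Finset.sum_sub_distrib, ← Finset.sum_add_distrib]
      refine Finset.sum_congr rfl fun p _ => ?_
      ring
    linarith
  -- lower bound
  have h12 : t * X2 ≤ ∑ z, rho E side m W z * Ψ z ^ 2 := by
    have h13 := h2 φ
    have h14 : ∑ z, rho E side m W z * Ψ z * esum E φ z ≤
        ∑ z, rho E side m W z * (((E.card : ℝ) * Ψ z ^ 2 + esum E (fun x y => φ x y ^ 2) z) / 2) := by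
      refine Finset.sum_le_sum fun z _ => ?_
      rw [mul_assoc]
      refine mul_le_mul_of_nonneg_left ?_ (hX.rho_nonneg z)
      unfold esum
      rw [Finset.mul_sum]
      have h15 : ((E.card : ℝ) * Ψ z ^ 2 + ∑ e ∈ E, φ (z e.1) (z e.2) ^ 2) / 2 =
          ∑ e ∈ E, (Ψ z ^ 2 + φ (z e.1) (z e.2) ^ 2) / 2 := by
        rw [← Finset.sum_div, Finset.sum_add_distrib, Finset.sum_const, nsmul_eq_mul]
      rw [h15]
      refine Finset.sum_le_sum fun e _ => ?_
      nlinarith [sq_nonneg (Ψ z - φ (z e.1) (z e.2))]
    have h16 : ∑ z, rho E side m W z *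
        (((E.card : ℝ) * Ψ z ^ 2 + esum E (fun x y => φ x y ^ 2) z) / 2) =
        ((E.card : ℝ) * (∑ z, rho E side m W z * Ψ z ^ 2) + t * E.card * X2) / 2 := by
      have h17 := hX.crit h hd (fun x y => φ x y ^ 2)
      rw [hX2, ← h17, Finset.mul_sum, ← Finset.sum_add_distrib, Finset.sum_div]
      refine Finset.sum_congr rfl fun z _ => ?_
      ring
    have h17 : ∑ p : U × U, law m W p * φ p.1 p.2 * φ p.1 p.2 = X2 := by
      rw [hX2]
      refine Finset.sum_congr rfl fun p _ => ?_
      ring
    rw [h13, h16, h17] at h14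
    have h18 : (E.card : ℝ) * (t * X2) ≤ E.card * ∑ z, rho E side m W z * Ψ z ^ 2 := by
      linarith
    exact le_of_mul_le_mul_left h18 hE0
  rw [h7] at h12
  have h13 := le_of_mul_le_mul_left h12 ht0
  nlinarith

end

end Vale.Agent.P050.H523
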